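import Vale.Agent.P214.REF.LWeak
import Vale.Agent.P214.WIN.Props

/-!
# P214, block LIN: statement of [WEYL] (definitions of propositions only)

A vector valued measure `z ν` which is a weak solution of the formal adjoint system up to an error
`D` is, up to that error, a smooth exact solution of the linear system in the interior.
-/

open MeasureTheory
open scoped ENNReal ContDiff

namespace Vale.Agent.P214.LIN

noncomputable section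

variable {m n : ℕ}

/-- the formal adjoint of `REF.Lop` -/
def Lopt (al : Fin m → Fin m → REF.E m → ℝ) (be : Fin n → Fin m × Fin n → REF.E m → ℝ)
    (φ : Fin n → REF.E m → ℝ) (b : Fin n) (x : REF.E m) : ℝ :=
  ∑ i, REF.pd i (REF.pd i (φ b)) x
    + ∑ i, ∑ j, REF.pd i (REF.pd j fun x => al i j x * φ b x) x
    - ∑ a, ∑ k, REF.pd k (fun x => be a (k, b) x * φ a x) x

/-- **[WEYL]** (helper874), norm `N (wt s 0 0)`, tests `C ^ (2 m + 3)` -/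
def WeylStmt (E : Type*) [MeasurableSpace E] (m n s : ℕ) : Prop :=
  ∃ ε C : ℝ, 0 < ε ∧ 1 ≤ C ∧ ∀ (al : Fin m → Fin m → REF.E m → ℝ)
    (be : Fin n → Fin m × Fin n → REF.E m → ℝ),
    (∀ i j, ContDiff ℝ ∞ (al i j)) → (∀ a q, ContDiff ℝ ∞ (be a q)) →
    (∀ i j x, 3 / 8 ≤ ‖x‖ → al i j x = 0) → (∀ a q x, 3 / 8 ≤ ‖x‖ → be a q x = 0) →
    (∀ i j, REF.N (REF.wt s 0 0) (REF.per (al i j)) ≤ ENNReal.ofReal ε) →
    (∀ a q, REF.N (REF.wt s 0 0) (REF.per (be a q)) ≤ ENNReal.ofReal ε) →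
    ∀ (r θ A D dl : ℝ) (ν : Measure E) (πx : E → REF.E m) (z : Fin n → E → ℝ),
    1 / 32 ≤ r → r ≤ 1 / 4 → 0 < θ → θ ≤ r / 8 → IsFiniteMeasure ν → Measurable πx →
    (∀ a, Integrable (z a) ν) → (∀ᵐ y ∂ν, ∀ a, z a y ≠ 0 → ‖πx y‖ < r) →
    ∑ a, ∫ y, |z a y| ∂ν ≤ A → 0 ≤ D → 0 < dl →
    (∀ (φ : Fin n → REF.E m → ℝ) (M : ℝ), WIN.Tst 2 (r - θ) M φ →
      |∫ y, ∑ b, z b y * Lopt al be φ b (πx y) ∂ν| ≤ D * M) →
    ∃ f : Fin n → REF.E m → ℝ, (∀ a, ContDiff ℝ ∞ (f a)) ∧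
      (∀ a x, r - 3 * θ ≤ ‖x‖ → f a x = 0) ∧
      (∀ a x, ‖x‖ < r - 4 * θ → REF.Lop al be f a x = 0) ∧
      (∀ a, REF.N (REF.wt (s + 2) 0 0) (REF.per (f a)) ≤
        ENNReal.ofReal (C * θ⁻¹ ^ C * (A + D + dl))) ∧
      ∀ (ψ : Fin n → REF.E m → ℝ) (M : ℝ), WIN.Tst (2 * m + 3) (r - 4 * θ) M ψ →
        |∫ y, ∑ b, z b y * ψ b (πx y) ∂ν - ∫ x, ∑ b, f b x * ψ b x| ≤ C * θ⁻¹ ^ C * (D + dl) * M

end

end Vale.Agent.P214.LIN
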