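import Vale.Agent.P214.LIN.Adj
import Vale.Agent.P214.LIN.Props

/-!
# P214, block LIN: [WEYL]

A vector valued measure which is a weak solution up to an error is an exact smooth solution in the
interior, up to a weak error.  Duality for the linear system (`REF.lsolve`) applied to a
trigonometric approximation of the measure, and the interior estimate.
-/

open MeasureTheory
open scoped ENNReal ContDiff Topology

namespace Vale.Agent.P214.LIN

open REF

noncomputable section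

variable {m n : ℕ}

/-- constant of the adjoint operator -/
def cT (m n : ℕ) : ℝ := (m + m ^ 2 + n * m) * (2 * Real.pi) ^ 2

lemma nn_Lt {c : Co m n} {s : ℕ} {ε M : ℝ} (hs : 3 ≤ s) (hε : ε ≤ 1) (hc : c.Good s ε)
    {φ : Fin n → E m → ℝ} (hφ : ∀ a, Sm (φ a)) (hM : ∀ a, nn 3 (φ a) ≤ M) (b : Fin n) :
    nn 1 (c.Lt φ b) ≤ cT m n * M := by
  have hM0 : 0 ≤ M := (nn_nonneg _ _).trans (hM b)
  have h2pi := one_le_twopi
  have hpi := Real.pi_pos
  obtain ⟨W, hW⟩ : ∃ W, W = (2 * Real.pi) ^ 2 * M := ⟨_, rfl⟩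
  have hW0 : 0 ≤ W := by rw [hW]; positivity
  have sa : ∀ i j, Sm fun x => c.al i j x * φ b x := fun i j => (hc.sa i j).mul (hφ b)
  have sb : ∀ a k, Sm fun x => c.be a (k, b) x * φ a x := fun a k => (hc.sb a (k, b)).mul (hφ a)
  have na : ∀ i j, nn 3 (fun x => c.al i j x * φ b x) ≤ M := by
    intro i j
    refine (nn_mul (hc.sa i j) (hφ b) 3).trans ?_
    calc _ ≤ 1 * M := mul_le_mul
          (((nn_mono (hc.sa i j) hs).trans (hc.ba i j)).trans hε) (hM b) (nn_nonneg _ _) zero_le_one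
      _ = M := one_mul _
  have nb : ∀ a k, nn 3 (fun x => c.be a (k, b) x * φ a x) ≤ M := by
    intro a k
    refine (nn_mul (hc.sb a (k, b)) (hφ a) 3).trans ?_
    calc _ ≤ 1 * M := mul_le_mul
          (((nn_mono (hc.sb a (k, b)) hs).trans (hc.bb a (k, b))).trans hε) (hM a)
          (nn_nonneg _ _) zero_le_one
      _ = M := one_mul _
  have two : ∀ (F : E m → ℝ), Sm F → nn 3 F ≤ M → ∀ i j, nn 1 (REF.pd i (REF.pd j F)) ≤ W := by
    intro F hF h i j
    rw [hW]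
    exact (nn_pd_pd hF i j 1).trans (by gcongr)
  have one : ∀ (F : E m → ℝ), Sm F → nn 3 F ≤ M → ∀ i, nn 1 (REF.pd i F) ≤ W := by
    intro F hF h i
    have h1 : nn 2 F ≤ M := (nn_mono hF (by norm_num)).trans h
    calc nn 1 (REF.pd i F) ≤ 2 * Real.pi * nn 2 F := nn_pd hF i 1
      _ ≤ 2 * Real.pi * M := by gcongr
      _ ≤ W := by
          rw [hW]
          have h6 : 2 * Real.pi ≤ (2 * Real.pi) ^ 2 := by nlinarith
          gcongr
  have p1 : nn 1 (Lap (φ b)) ≤ m * W := by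
    unfold Lap
    refine (nn_sum _ (fun i _ => ((hφ b).pd i).pd i) 1).trans ?_
    refine (Finset.sum_le_sum (g := fun _ => W) fun i _ => two _ (hφ b) (hM b) i i).trans (by simp)
  have p2 : nn 1 (fun x => ∑ i, ∑ j, REF.pd i (REF.pd j fun y => c.al i j y * φ b y) x) ≤
      m ^ 2 * W := by
    refine (nn_sum _ (fun i _ => Sm.sum _ fun j _ => ((sa i j).pd j).pd i) 1).trans ?_
    have : ∀ i : Fin m, nn 1 (fun x => ∑ j, REF.pd i (REF.pd j fun y => c.al i j y * φ b y) x) ≤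
        m * W := by
      intro i
      refine (nn_sum _ (fun j _ => ((sa i j).pd j).pd i) 1).trans ?_
      exact (Finset.sum_le_sum (g := fun _ => W) fun j _ => two _ (sa i j) (na i j) i j).trans
        (by simp)
    refine (Finset.sum_le_sum fun i _ => this i).trans (le_of_eq ?_)
    simp only [Finset.sum_const, Finset.card_univ, Fintype.card_fin, nsmul_eq_mul]
    ring
  have p3 : nn 1 (fun x => ∑ a, ∑ k, REF.pd k (fun y => c.be a (k, b) y * φ a y) x) ≤
      n * m * W := by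
    refine (nn_sum _ (fun a _ => Sm.sum _ fun k _ => (sb a k).pd k) 1).trans ?_
    have : ∀ a : Fin n, nn 1 (fun x => ∑ k, REF.pd k (fun y => c.be a (k, b) y * φ a y) x) ≤
        m * W := by
      intro a
      refine (nn_sum _ (fun k _ => (sb a k).pd k) 1).trans ?_
      exact (Finset.sum_le_sum (g := fun _ => W) fun k _ => one _ (sb a k) (nb a k) k).trans
        (by simp)
    refine (Finset.sum_le_sum fun i _ => this i).trans (le_of_eq ?_)
    simp only [Finset.sum_const, Finset.card_univ, Fintype.card_fin, nsmul_eq_mul]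
    ring
  have q2 : Sm fun x => ∑ i, ∑ j, REF.pd i (REF.pd j fun y => c.al i j y * φ b y) x :=
    Sm.sum _ fun i _ => Sm.sum _ fun j _ => ((sa i j).pd j).pd i
  have q3 : Sm fun x => ∑ a, ∑ k, REF.pd k (fun y => c.be a (k, b) y * φ a y) x :=
    Sm.sum _ fun a _ => Sm.sum _ fun k _ => (sb a k).pd k
  have r1 := nn_add (hφ b).lap (q2.sub q3) 1
  have r2 := nn_sub q2 q3 1
  have r3 : cT m n * M = m * W + (m ^ 2 * W + n * m * W) := by
    rw [hW]
    unfold cT
    ring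
  rw [r3]
  unfold Co.Lt
  linarith

/-! ### the weak estimate -/

variable {Y : Type*} [MeasurableSpace Y]

/-- the approximation of a vector valued measure -/
lemma tp_vec {ν : Measure Y} {z : Fin n → Y → ℝ} {πx : Y → E m} (hz : ∀ a, Integrable (z a) ν)
    (hπ : Measurable πx) (hb : ∀ᵐ y ∂ν, ∀ a, z a y ≠ 0 → ‖πx y‖ < 1 / 2) (N : ℕ)
    {A : ℝ} (hA : ∑ a, ∫ y, |z a y| ∂ν ≤ A) {Ψ : Fin n → E m → ℝ} (hΨ : ∀ a, Sm (Ψ a)) {M : ℝ}
    (hM0 : 0 ≤ M) (hM : ∀ a, nn 1 (Ψ a) ≤ M) :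
    |(∑ b, ∫ x, tp N ν (z b) πx x * Ψ b x) - ∫ y, ∑ b, z b y * Ψ b (πx y) ∂ν| ≤
      A * M / (N + 1) := by
  have hi : ∀ b, Integrable (fun y => z b y * Ψ b (πx y)) ν := by
    intro b
    refine (hz b).mul_bdd (c := nn 0 (Ψ b)) ?_ ?_
    · exact ((hΨ b).cont.measurable.comp hπ).aestronglyMeasurable
    · exact Filter.Eventually.of_forall fun y => (hΨ b).abs_le _
  rw [integral_finsetSum _ fun b _ => hi b, ← Finset.sum_sub_distrib]
  have hN : (0 : ℝ) < N + 1 := by positivity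
  calc |∑ b, ((∫ x, tp N ν (z b) πx x * Ψ b x) - ∫ y, z b y * Ψ b (πx y) ∂ν)|
      ≤ ∑ b, |(∫ x, tp N ν (z b) πx x * Ψ b x) - ∫ y, z b y * Ψ b (πx y) ∂ν| :=
        Finset.abs_sum_le_sum_abs _ _
    _ ≤ ∑ b, M / (N + 1) * ∫ y, |z b y| ∂ν := by
        refine Finset.sum_le_sum fun b _ => ?_
        refine (tp_error (hz b) hπ (hb.mono fun y hy => hy b) N (hΨ b)).trans ?_
        have h1 : 0 ≤ ∫ y, |z b y| ∂ν := integral_nonneg fun y => abs_nonneg _
        have := hM b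
        gcongr
    _ = M / (N + 1) * ∑ b, ∫ y, |z b y| ∂ν := by rw [Finset.mul_sum]
    _ ≤ M / (N + 1) * A := by gcongr
    _ = _ := by ring

lemma abs_int_le {ν : Measure Y} {z : Fin n → Y → ℝ} {πx : Y → E m} (hz : ∀ a, Integrable (z a) ν)
    (hπ : Measurable πx) {A : ℝ} (hA : ∑ a, ∫ y, |z a y| ∂ν ≤ A) {Ψ : Fin n → E m → ℝ}
    (hΨ : ∀ a, Sm (Ψ a)) {M : ℝ} (hM0 : 0 ≤ M) (hM : ∀ a, nn 0 (Ψ a) ≤ M) :
    |∫ y, ∑ b, z b y * Ψ b (πx y) ∂ν| ≤ A * M := by
  have hi : ∀ b, Integrable (fun y => z b y * Ψ b (πx y)) ν := by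
    intro b
    refine (hz b).mul_bdd (c := nn 0 (Ψ b)) ?_ ?_
    · exact ((hΨ b).cont.measurable.comp hπ).aestronglyMeasurable
    · exact Filter.Eventually.of_forall fun y => (hΨ b).abs_le _
  rw [integral_finsetSum _ fun b _ => hi b]
  calc |∑ b, ∫ y, z b y * Ψ b (πx y) ∂ν| ≤ ∑ b, |∫ y, z b y * Ψ b (πx y) ∂ν| :=
        Finset.abs_sum_le_sum_abs _ _
    _ ≤ ∑ b, M * ∫ y, |z b y| ∂ν := by
        refine Finset.sum_le_sum fun b _ => ?_
        rw [← integral_const_mul]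
        refine abs_integral_le_integral_abs.trans ?_
        refine integral_mono (hi b).abs ((hz b).abs.const_mul _) fun y => ?_
        simp only
        rw [abs_mul, mul_comm]
        have := ((hΨ b).abs_le (πx y)).trans (hM b)
        gcongr
    _ = M * ∑ b, ∫ y, |z b y| ∂ν := by rw [Finset.mul_sum]
    _ ≤ M * A := by gcongr
    _ = _ := by ring

/-! ### conversions -/

lemma L_eq_Lop (al : Fin m → Fin m → E m → ℝ) (be : Fin n → Fin m × Fin n → E m → ℝ)
    (f : Fin n → E m → ℝ) (a : Fin n) (x : E m) :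
    (⟨al, be⟩ : Co m n).L f a x = REF.Lop al be f a x := by
  unfold Co.L REF.Lop Lap
  simp only
  ring

lemma Lt_eq_Lopt (al : Fin m → Fin m → E m → ℝ) (be : Fin n → Fin m × Fin n → E m → ℝ)
    (f : Fin n → E m → ℝ) (b : Fin n) (x : E m) :
    (⟨al, be⟩ : Co m n).Lt f b x = Lopt al be f b x := by
  unfold Co.Lt Lopt Lap
  simp only
  ring

lemma contDiff_L {c : Co m n} {s : ℕ} {ε : ℝ} (hc : c.Good s ε) {U : Fin n → E m → ℝ}
    (hU : ∀ a, ContDiff ℝ ∞ (U a)) (a : Fin n) : ContDiff ℝ ∞ (c.L U a) := by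
  unfold Co.L Lap
  refine ContDiff.add (ContDiff.sum fun i _ => contDiff_pd (contDiff_pd (hU a) i) i)
    (ContDiff.add (ContDiff.sum fun i _ => ContDiff.sum fun j _ => ?_)
      (ContDiff.sum fun p _ => ?_))
  · exact (hc.sa i j).cd.mul (contDiff_pd (contDiff_pd (hU a) j) i)
  · exact (hc.sb a p).cd.mul (contDiff_pd (hU p.2) p.1)

lemma L_add (c : Co m n) {U v : Fin n → E m → ℝ} (hU : ∀ a, ContDiff ℝ ∞ (U a))
    (hv : ∀ a, ContDiff ℝ ∞ (v a)) (a : Fin n) (x : E m) :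
    c.L (fun b y => U b y + v b y) a x = c.L U a x + c.L v a x := by
  have hpd : ∀ b i, REF.pd i (fun y => U b y + v b y) =
      fun y => REF.pd i (U b) y + REF.pd i (v b) y := fun b i => pd_add (hU b) (hv b) i
  have hpd2 : ∀ b i j, REF.pd i (fun y => REF.pd j (U b) y + REF.pd j (v b) y) =
      fun y => REF.pd i (REF.pd j (U b)) y + REF.pd i (REF.pd j (v b)) y :=
    fun b i j => pd_add (contDiff_pd (hU b) j) (contDiff_pd (hv b) j) i
  unfold Co.L Lap
  simp only [hpd, hpd2, mul_add, Finset.sum_add_distrib]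
  ring

lemma L_congr (c : Co m n) {f f' : Fin n → E m → ℝ} {x : E m} (h : ∀ b, f b =ᶠ[𝓝 x] f' b)
    (a : Fin n) : c.L f a x = c.L f' a x := by
  have h1 : ∀ b i, REF.pd i (f b) x = REF.pd i (f' b) x := fun b i =>
    (pd_congr (h b) i).eq_of_nhds
  have h2 : ∀ b i j, REF.pd i (REF.pd j (f b)) x = REF.pd i (REF.pd j (f' b)) x :=
    fun b i j => (pd_congr (pd_congr (h b) j) i).eq_of_nhds
  unfold Co.L Lap
  simp only [h1, h2]

lemma tri (P V Q : ℝ) : |P + V - Q| ≤ |P - Q| + |V| := by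
  have h : P + V - Q = (P - Q) + V := by ring
  rw [h]
  exact abs_add_le _ _

/-- single component -/
lemma single_comp {ι : Type*} [Fintype ι] [DecidableEq ι] (a : ι) (F G : ι → E m → ℝ) (ψ : E m → ℝ)
    (hG : ∀ b, G b = if b = a then ψ else fun _ => 0) :
    ∑ b, ∫ x, F b x * G b x = ∫ x, F a x * ψ x := by
  rw [Finset.sum_eq_single a]
  · rw [hG a, if_pos rfl]
  · intro b _ hb
    rw [hG b, if_neg hb]
    simp
  · intro h
    exact absurd (Finset.mem_univ a) h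

/-- the approximate solution before the interior estimate -/
lemma weyl_pre (hm : 0 < m) (n : ℕ) {s : ℕ} (hs : 3 ≤ s) : ∃ ε : ℝ, 0 < ε ∧ ∃ B : ℝ, 1 ≤ B ∧
    ∀ (al : Fin m → Fin m → E m → ℝ) (be : Fin n → Fin m × Fin n → E m → ℝ) (ε' : ℝ), ε' ≤ 1 →
    (⟨al, be⟩ : Co m n).Good s ε' → (∀ i j x, 3 / 8 ≤ ‖x‖ → al i j x = 0) →
    (∀ a q x, 3 / 8 ≤ ‖x‖ → be a q x = 0) →
    (∀ i j, REF.N (REF.wt s 0 0) (REF.per (al i j)) ≤ ENNReal.ofReal ε) →
    (∀ a q, REF.N (REF.wt s 0 0) (REF.per (be a q)) ≤ ENNReal.ofReal ε) →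
    ∀ (r θ A D dl : ℝ) (ν : Measure Y) (πx : Y → REF.E m) (z : Fin n → Y → ℝ),
    1 / 32 ≤ r → r ≤ 1 / 4 → 0 < θ → θ ≤ r / 8 → Measurable πx →
    (∀ a, Integrable (z a) ν) → (∀ᵐ y ∂ν, ∀ a, z a y ≠ 0 → ‖πx y‖ < r) →
    ∑ a, ∫ y, |z a y| ∂ν ≤ A → 0 ≤ D → 0 < dl →
    (∀ (φ : Fin n → REF.E m → ℝ) (M : ℝ), WIN.Tst 2 (r - θ) M φ →
      |∫ y, ∑ b, z b y * Lopt al be φ b (πx y) ∂ν| ≤ D * M) →
    ∃ g : Fin n → REF.E m → ℝ, (∀ a, ContDiff ℝ ∞ (g a)) ∧
      (∀ a x, ‖x‖ < r - 2 * θ → (⟨al, be⟩ : Co m n).L g a x = 0) ∧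
      ∃ E1 : ℝ, 0 ≤ E1 ∧ E1 ≤ B * θ⁻¹ ^ (3 + 2 * m) * (D + dl) ∧
      ∀ (ψ : Fin n → E m → ℝ) (M : ℝ), (∀ a, Sm (ψ a)) → (∀ a x, 9 / 32 ≤ ‖x‖ → ψ a x = 0) →
      0 ≤ M → (∀ a, nn 3 (ψ a) ≤ M) →
      |(∑ b, ∫ x, g b x * ψ b x) - ∫ y, ∑ b, z b y * ψ b (πx y) ∂ν| ≤ E1 * M := by
  obtain ⟨ε1, hε1, C1, hC1, hls⟩ := lsolve hm n s 3 hs
  obtain ⟨C3, hC3, hctf⟩ := nn_ctf m 3
  have hcT : 0 ≤ cT m n := by
    unfold cT
    positivity
  have hpi := Real.pi_pos
  refine ⟨ε1, hε1, 1 + C1 * ((2 * Real.pi) ^ 2 * C3), ?_, ?_⟩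
  · have : 0 ≤ C1 * ((2 * Real.pi) ^ 2 * C3) := by positivity
    linarith
  intro al be ε' hε' hgood hal0 hbe0 hNal hNbe r θ A D dl ν πx z hr1 hr2 hθ hθr hπ hz hsup hA hD
    hdl hyp
  set c : Co m n := ⟨al, be⟩ with hc
  have hA0 : 0 ≤ A := (Finset.sum_nonneg fun a _ => integral_nonneg fun y => abs_nonneg _).trans hA
  have hsup2 : ∀ᵐ y ∂ν, ∀ a, z a y ≠ 0 → ‖πx y‖ < 1 / 2 := by
    filter_upwards [hsup] with y hy a ha
    linarith [hy a ha]
  -- the size of the inverse distance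
  set t : ℝ := θ⁻¹ with ht
  have ht1 : 1 ≤ t := by
    rw [ht, one_le_inv₀ hθ]
    linarith
  have ht0 : 0 < t := by linarith
  -- the cut-off
  have sχ : Sm (ctf (m := m) (r - 2 * θ) (r - θ)) := sm_ctf (by linarith) (by linarith) (by linarith)
  obtain ⟨K, hK⟩ : ∃ K, K = nn 3 (ctf (m := m) (r - 2 * θ) (r - θ)) := ⟨_, rfl⟩
  have hK0 : 0 ≤ K := by rw [hK]; exact nn_nonneg _ _
  have hK3 : K ≤ C3 * t ^ (3 + 2 * m) := by
    rw [hK]
    have h1 := hctf (r - 2 * θ) (r - θ) (by linarith) (by linarith) (by linarith)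
    have h2 : r - θ - (r - 2 * θ) = θ := by ring
    rw [h2] at h1
    exact h1
  -- the number of frequencies
  obtain ⟨N, hN⟩ := exists_nat_ge (A * (1 + C1 * (cT m n * K)) / dl)
  have hN0 : (0 : ℝ) < N + 1 := by positivity
  have hNdl : A * (1 + C1 * (cT m n * K)) / (N + 1) ≤ dl := by
    rw [div_le_iff₀ hN0]
    rw [div_le_iff₀ hdl] at hN
    nlinarith
  set U : Fin n → E m → ℝ := fun b => tp N ν (z b) πx with hU
  have hUs : ∀ b, ContDiff ℝ ∞ (U b) := fun b => contDiff_tp N ν (z b) πx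
  -- the defect
  obtain ⟨v, hv1, hv2, hv3, -, hv5⟩ := hls al be (fun i j => (hgood.sa i j).cd)
    (fun a q => (hgood.sb a q).cd) hal0 hbe0 hNal hNbe
    (fun a x => ctf (r - 2 * θ) (r - θ) x * c.L U a x)
    (fun a => (contDiff_ctf _ _).mul (contDiff_L hgood hUs a))
    (fun a x hx => by
      simp only [ctf_zero (a := r - 2 * θ) (b := r - θ) (by linarith) (by linarith)
        (show r - θ ≤ ‖x‖ by linarith), zero_mul])
  set W0 : ℝ := D * ((2 * Real.pi) ^ 2 * K) + A * (cT m n * K) / (N + 1) with hW0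
  have hW00 : 0 ≤ W0 := by positivity
  have hweak := hv5 W0 hW00 (by
    intro Φ M hM0 hΦ hΦ0 hΦM
    have sΦ : ∀ a, Sm (Φ a) := fun a => ⟨hΦ a, 3 / 8, by norm_num, hΦ0 a⟩
    have nΦ : ∀ a, nn 3 (Φ a) ≤ M := fun a => nn_le_of hM0 (hΦM a)
    have sφ : ∀ a, Sm fun x => ctf (r - 2 * θ) (r - θ) x * Φ a x := fun a => sχ.mul (sΦ a)
    have nφ : ∀ a, nn 3 (fun x => ctf (r - 2 * θ) (r - θ) x * Φ a x) ≤ K * M := by
      intro a
      refine (nn_mul sχ (sΦ a) 3).trans ?_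
      rw [← hK]
      have := nΦ a
      gcongr
    have e1 : ∑ a, ∫ x, (ctf (r - 2 * θ) (r - θ) x * c.L U a x) * Φ a x =
        ∑ b, ∫ x, U b x * c.Lt (fun a x => ctf (r - 2 * θ) (r - θ) x * Φ a x) b x := by
      rw [← adj_rel hgood hUs sφ]
      refine Finset.sum_congr rfl fun a _ => ?_
      congr 1
      funext x
      ring
    rw [e1]
    have h1 := tp_vec hz hπ hsup2 N hA (fun b => sm_Lt hgood sφ b)
      (M := cT m n * (K * M)) (by positivity) (fun b => nn_Lt hs hε' hgood sφ nφ b)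
    have h2 : |∫ y, ∑ b, z b y * c.Lt (fun a x => ctf (r - 2 * θ) (r - θ) x * Φ a x) b (πx y) ∂ν| ≤
        D * ((2 * Real.pi) ^ 2 * (K * M)) := by
      have h3 := hyp (fun a x => ctf (r - 2 * θ) (r - θ) x * Φ a x)
        ((2 * Real.pi) ^ 2 * (K * M))
        { smooth := fun a => (sφ a).cd
          supp := fun a x hx => by
            simp only [ctf_zero (a := r - 2 * θ) (b := r - θ) (by linarith) (by linarith) hx,
              zero_mul]
          bd := fun a k hk x => by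
            refine ((sφ a).iter_le k x).trans ?_
            have h4 : nn k (fun x => ctf (r - 2 * θ) (r - θ) x * Φ a x) ≤ K * M :=
              (nn_mono (sφ a) (by omega)).trans (nφ a)
            have h5 : (2 * Real.pi) ^ k ≤ (2 * Real.pi) ^ 2 :=
              pow_le_pow_right₀ one_le_twopi hk
            have h6 := nn_nonneg k (fun x => ctf (r - 2 * θ) (r - θ) x * Φ a x)
            exact mul_le_mul h5 h4 h6 (by positivity) }
      have h7 : ∀ y, ∑ b, z b y * Lopt al be (fun a x => ctf (r - 2 * θ) (r - θ) x * Φ a x) b (πx y) =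
          ∑ b, z b y * c.Lt (fun a x => ctf (r - 2 * θ) (r - θ) x * Φ a x) b (πx y) := fun y =>
        Finset.sum_congr rfl fun b _ => by rw [hc, Lt_eq_Lopt]
      simp only [h7] at h3
      exact h3
    have h8 : W0 * M = A * (cT m n * (K * M)) / (N + 1) + D * ((2 * Real.pi) ^ 2 * (K * M)) := by
      rw [hW0]
      ring
    rw [h8]
    have h9 := abs_sub_abs_le_abs_sub
      (∑ b, ∫ x, U b x * c.Lt (fun a x => ctf (r - 2 * θ) (r - θ) x * Φ a x) b x)
      (∫ y, ∑ b, z b y * c.Lt (fun a x => ctf (r - 2 * θ) (r - θ) x * Φ a x) b (πx y) ∂ν)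
    linarith)
  -- the solution
  set g : Fin n → E m → ℝ := fun b x => U b x + v b x with hg
  have hgs : ∀ a, ContDiff ℝ ∞ (g a) := fun a => (hUs a).add (hv1 a)
  have hLg : ∀ a x, ‖x‖ < r - 2 * θ → c.L g a x = 0 := by
    intro a x hx
    rw [hg, L_add c hUs hv1, hc, L_eq_Lop al be v, hv3 a x (by linarith)]
    rw [ctf_one (a := r - 2 * θ) (b := r - θ) (by linarith) (by linarith) hx.le]
    ring
  set E1 : ℝ := A / (N + 1) + C1 * W0 with hE1
  have hE10 : 0 ≤ E1 := by positivity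
  refine ⟨g, hgs, hLg, E1, hE10, ?_, ?_⟩
  · have htp1 : 1 ≤ t ^ (3 + 2 * m) := one_le_pow₀ ht1
    have e1 : E1 = A * (1 + C1 * (cT m n * K)) / (N + 1) + C1 * ((2 * Real.pi) ^ 2 * K) * D := by
      rw [hE1, hW0]
      field_simp
      ring
    have e2 : C1 * ((2 * Real.pi) ^ 2 * K) * D ≤
        C1 * ((2 * Real.pi) ^ 2 * (C3 * t ^ (3 + 2 * m))) * D := by gcongr
    have e3 : (1 + C1 * ((2 * Real.pi) ^ 2 * C3)) * t ^ (3 + 2 * m) * (D + dl) =
        t ^ (3 + 2 * m) * dl + t ^ (3 + 2 * m) * D +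
        C1 * ((2 * Real.pi) ^ 2 * (C3 * t ^ (3 + 2 * m))) * dl +
        C1 * ((2 * Real.pi) ^ 2 * (C3 * t ^ (3 + 2 * m))) * D := by ring
    have e4 : dl ≤ t ^ (3 + 2 * m) * dl := le_mul_of_one_le_left hdl.le htp1
    have e5 : 0 ≤ t ^ (3 + 2 * m) * D := by positivity
    have e6 : 0 ≤ C1 * ((2 * Real.pi) ^ 2 * (C3 * t ^ (3 + 2 * m))) * dl := by positivity
    rw [e3, e1]
    linarith
  · intro ψ M sψ hψ0 hM0 hψM
    have h1 := tp_vec hz hπ hsup2 N hA sψ hM0 (fun a => (nn_mono (sψ a) (by norm_num)).trans (hψM a))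
    have h2 := hweak ψ M hM0 (fun a => (sψ a).cd) hψ0 (fun a => (sψ a).le_of (hψM a))
    have h3 : ∑ b, ∫ x, g b x * ψ b x = (∑ b, ∫ x, tp N ν (z b) πx x * ψ b x) +
        ∑ b, ∫ x, v b x * ψ b x := by
      rw [← Finset.sum_add_distrib]
      refine Finset.sum_congr rfl fun b _ => ?_
      rw [← integral_add (Sm.mul_left (hUs b) (sψ b)).integrable
        (Sm.mul_left (hv1 b) (sψ b)).integrable]
      congr 1
      funext x
      simp only [hg, hU]
      ring
    have h4 : E1 * M = A * M / (N + 1) + C1 * W0 * M := by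
      rw [hE1]
      ring
    rw [h3, h4]
    refine le_trans (tri _ _ _) (add_le_add h1 h2)

/-- **[WEYL]** -/
theorem weyl (hm : 0 < m) (hn : 0 < n) {s : ℕ} (hs : 3 ≤ s) : WeylStmt Y m n s := by
  obtain ⟨ε1, hε1, B, hB1, hpre⟩ := weyl_pre (Y := Y) hm n hs
  obtain ⟨ε2, hε2, hε2', C2, hC2, κ, hint⟩ := interior m n s (by omega)
  obtain ⟨C4, hC4, htst⟩ := nn_le_iter m 3
  set p : ℕ := 3 + 2 * m with hp
  set CC : ℝ := (1 + C2) * (1 + C4) * B + (κ + p : ℕ) with hCC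
  have hCC1 : (1 + C2) * (1 + C4) * B ≤ CC := by
    have : (0 : ℝ) ≤ (κ + p : ℕ) := Nat.cast_nonneg _
    linarith
  have hCC2 : ((κ + p : ℕ) : ℝ) ≤ CC := by
    have : (0 : ℝ) ≤ (1 + C2) * (1 + C4) * B := by positivity
    linarith
  have h1C : 1 ≤ (1 + C2) * (1 + C4) * B := by
    have h1 : 1 ≤ (1 + C2) * (1 + C4) := by nlinarith
    nlinarith
  refine ⟨min ε1 ε2, CC, lt_min hε1 hε2, h1C.trans hCC1, ?_⟩
  intro al be hal hbe hal0 hbe0 hNal hNbe r θ A D dl ν πx z hr1 hr2 hθ hθr hν hπ hz hsup hA hD hdl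
    hyp
  have hgood : (⟨al, be⟩ : Co m n).Good s ε2 :=
    { sa := fun i j => ⟨hal i j, 3 / 8, by norm_num, hal0 i j⟩
      sb := fun a q => ⟨hbe a q, 3 / 8, by norm_num, hbe0 a q⟩
      ba := fun i j => nn_le_of hε2.le
        ((hNal i j).trans (ENNReal.ofReal_le_ofReal (min_le_right _ _)))
      bb := fun a q => nn_le_of hε2.le
        ((hNbe a q).trans (ENNReal.ofReal_le_ofReal (min_le_right _ _))) }
  obtain ⟨g, hgs, hLg, E1, hE10, hE1B, hgw⟩ := hpre al be ε2 hε2' hgood hal0 hbe0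
    (fun i j => (hNal i j).trans (ENNReal.ofReal_le_ofReal (min_le_left _ _)))
    (fun a q => (hNbe a q).trans (ENNReal.ofReal_le_ofReal (min_le_left _ _)))
    r θ A D dl ν πx z hr1 hr2 hθ hθr hπ hz hsup hA hD hdl hyp
  set c : Co m n := ⟨al, be⟩ with hc
  have hA0 : 0 ≤ A := (Finset.sum_nonneg fun a _ => integral_nonneg fun y => abs_nonneg _).trans hA
  set t : ℝ := θ⁻¹ with ht
  have ht1 : 1 ≤ t := by
    rw [ht, one_le_inv₀ hθ]
    linarith
  have ht0 : 0 < t := by linarith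
  -- single components
  have hga : ∀ a, ∀ ψ : E m → ℝ, Sm ψ → (∀ x, r - 2 * θ ≤ ‖x‖ → ψ x = 0) →
      |∫ x, g a x * ψ x| ≤ (A + E1) * nn 3 ψ := by
    intro a ψ sψ hψ0
    have e0 : ∀ b : Fin n, (fun b => if b = a then ψ else fun _ => 0 : Fin n → E m → ℝ) b =
        if b = a then ψ else fun _ => 0 := fun b => rfl
    have s1 : ∀ b, Sm ((fun b => if b = a then ψ else fun _ => 0 : Fin n → E m → ℝ) b) := by
      intro b
      simp only
      split_ifs
      · exact sψ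
      · exact Sm.zero
    have n1 : ∀ b, nn 3 ((fun b => if b = a then ψ else fun _ => 0 : Fin n → E m → ℝ) b) ≤
        nn 3 ψ := by
      intro b
      simp only
      split_ifs
      · exact le_rfl
      · rw [nn_zero]
        exact nn_nonneg _ _
    have h1 := hgw (fun b => if b = a then ψ else fun _ => 0) (nn 3 ψ) s1
      (fun b x hx => by
        by_cases hb : b = a
        · rw [if_pos hb]
          exact hψ0 x (by linarith)
        · rw [if_neg hb]) (nn_nonneg _ _) n1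
    have h2 := abs_int_le hz hπ hA s1 (nn_nonneg 3 ψ)
      (fun b => (nn_mono (s1 b) (by norm_num)).trans (n1 b))
    rw [single_comp a g _ ψ e0] at h1
    have h3 := abs_sub_abs_le_abs_sub (∫ x, g a x * ψ x)
      (∫ y, ∑ b, z b y * (fun b => if b = a then ψ else fun _ => 0 : Fin n → E m → ℝ) b (πx y) ∂ν)
    linarith
  -- the interior estimate
  have hi := hint c hgood g hgs (r - 2 * θ) (2 * θ) (A + E1) (by linarith) (by linarith)
    (by linarith) (by linarith) hLg hga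
  have r1 : r - 2 * θ - 2 * θ = r - 4 * θ := by ring
  have r2 : r - 2 * θ - 2 * θ / 2 = r - 3 * θ := by ring
  rw [r1, r2] at hi
  have sχ2 : Sm (ctf (m := m) (r - 4 * θ) (r - 3 * θ)) :=
    sm_ctf (by linarith) (by linarith) (by linarith)
  have sf : ∀ a, Sm fun x => ctf (r - 4 * θ) (r - 3 * θ) x * g a x := fun a => sχ2.mul_right (hgs a)
  -- constants
  have htp1 : 1 ≤ t ^ p := one_le_pow₀ ht1
  have htC : t ^ (κ + p) ≤ t ^ CC := by
    rw [← Real.rpow_natCast]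
    exact Real.rpow_le_rpow_of_exponent_le ht1 hCC2
  have htC2 : t ^ p ≤ t ^ CC := (pow_le_pow_right₀ ht1 (by omega)).trans htC
  have htC0 : 0 < t ^ CC := Real.rpow_pos_of_pos ht0 _
  refine ⟨fun a x => ctf (r - 4 * θ) (r - 3 * θ) x * g a x, fun a => (sf a).cd, ?_, ?_, ?_, ?_⟩
  · intro a x hx
    simp only [ctf_zero (a := r - 4 * θ) (b := r - 3 * θ) (by linarith) (by linarith) hx, zero_mul]
  · intro a x hx
    rw [← L_eq_Lop, ← hc, ← hLg a x (by linarith)]
    refine L_congr c (fun b => ?_) a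
    filter_upwards [(isOpen_lt continuous_norm continuous_const).mem_nhds hx] with y hy
    rw [ctf_one (a := r - 4 * θ) (b := r - 3 * θ) (by linarith) (by linarith) (le_of_lt hy),
      one_mul]
  · intro a
    refine (sf a).le_of ?_
    refine (nn_le_tt (s + 2) (fun a x => ctf (r - 4 * θ) (r - 3 * θ) x * g a x) a).trans
      (hi.trans ?_)
    have k1 : ((2 * θ)⁻¹) ^ κ ≤ t ^ κ := by
      have : (2 * θ)⁻¹ ≤ t := by
        rw [ht]
        exact inv_anti₀ hθ (by linarith)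
      gcongr
    have k2 : A + E1 ≤ B * t ^ p * (A + D + dl) := by
      have h8 : 1 ≤ B * t ^ p := one_le_mul_of_one_le_of_one_le hB1 htp1
      have h9 : A ≤ B * t ^ p * A := le_mul_of_one_le_left hA0 h8
      have h10 : B * t ^ p * (A + D + dl) = B * t ^ p * A + B * t ^ p * (D + dl) := by ring
      rw [h10]
      exact add_le_add h9 hE1B
    calc C2 * (2 * θ)⁻¹ ^ κ * (A + E1) ≤ C2 * t ^ κ * (B * t ^ p * (A + D + dl)) := by
          gcongr
      _ = (C2 * B) * t ^ (κ + p) * (A + D + dl) := by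
          rw [pow_add]
          ring
      _ ≤ CC * t ^ CC * (A + D + dl) := by
          have k3 : C2 * B ≤ CC := by
            refine le_trans ?_ hCC1
            have h8 : (1 + C2) * (1 + C4) * B = B + C2 * B + C4 * B + C2 * C4 * B := by ring
            have h9 : 0 ≤ B + C4 * B + C2 * C4 * B := by positivity
            rw [h8]
            linarith
          have : 0 ≤ A + D + dl := by linarith
          have : 0 ≤ CC := (h1C.trans hCC1).trans' zero_le_one
          gcongr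
  · intro ψ M hψ
    have hM0 : 0 ≤ M := (norm_nonneg _).trans (hψ.bd ⟨0, hn⟩ 0 (Nat.zero_le _) 0)
    have sψ : ∀ a, Sm (ψ a) := fun a => ⟨hψ.smooth a, r - 4 * θ, by linarith, hψ.supp a⟩
    have nψ : ∀ a, nn 3 (ψ a) ≤ C4 * M := fun a =>
      htst (ψ a) (sψ a) M hM0 fun j hj x => hψ.bd a j (by omega) x
    have h1 := hgw ψ (C4 * M) sψ (fun a x hx => hψ.supp a x (by linarith)) (by positivity) nψ
    have h2 : ∫ x, ∑ b, (ctf (r - 4 * θ) (r - 3 * θ) x * g b x) * ψ b x =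
        ∑ b, ∫ x, g b x * ψ b x := by
      rw [integral_finsetSum _ fun b _ => ((sf b).mul (sψ b)).integrable]
      refine Finset.sum_congr rfl fun b _ => ?_
      congr 1
      funext x
      by_cases hx : ‖x‖ ≤ r - 4 * θ
      · rw [ctf_one (a := r - 4 * θ) (b := r - 3 * θ) (by linarith) (by linarith) hx, one_mul]
      · push Not at hx
        rw [hψ.supp b x hx.le, mul_zero, mul_zero]
    rw [h2, abs_sub_comm]
    refine h1.trans ?_
    calc E1 * (C4 * M) ≤ (B * t ^ p * (D + dl)) * (C4 * M) := by gcongr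
      _ = (B * C4) * t ^ p * (D + dl) * M := by ring
      _ ≤ CC * t ^ CC * (D + dl) * M := by
          have k3 : B * C4 ≤ CC := by
            refine le_trans ?_ hCC1
            have h8 : (1 + C2) * (1 + C4) * B = B + C2 * B + B * C4 + C2 * C4 * B := by ring
            have h9 : 0 ≤ B + C2 * B + C2 * C4 * B := by positivity
            rw [h8]
            linarith
          have : 0 ≤ CC := (h1C.trans hCC1).trans' zero_le_one
          gcongr

end

end Vale.Agent.P214.LIN
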