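import Vale.Agent.P214.LIN.Asm

/-!
# P214, block LINW: the linearisation step from [WEYL] and REF2W
-/

open MvPolynomial MeasureTheory Filter Topology
open scoped ENNReal ContDiff

namespace Vale.Agent.P214.LIN

open REF (pd per N wt Sup fc Wt Mop cp gm ctf qt repE)

noncomputable section

variable {m n : ℕ}

/-- one application of REF2W to `u + f`, where `f` is an almost solution of the linearised
equation -/
theorem quad_step (hm : 0 < m) (n J : ℕ) : ∃ ε K : ℝ, 0 < ε ∧ 0 ≤ K ∧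
    ∀ (u f : Fin n → REF.E m → ℝ) (R θ F : ℝ),
      (∀ a, ContDiff ℝ ∞ (u a)) → (∀ a x, 3 / 8 ≤ ‖x‖ → u a x = 0) →
      (∀ a, ContDiff ℝ ∞ (f a)) → (∀ a x, 3 / 8 ≤ ‖x‖ → f a x = 0) →
      (∀ a, N (wt (J + 2) 0 0) (per (u a)) ≤ ENNReal.ofReal ε) →
      0 < θ → θ < R → R ≤ 1 / 4 → 0 ≤ F → F ≤ ε → K * θ⁻¹ ^ (J + 2 * m) * F ^ 2 ≤ ε →
      (∀ a, N (wt (J + 2) 0 0) (per (f a)) ≤ ENNReal.ofReal F) →
      (∀ a x, ‖x‖ < R → Mop u a x = 0) → (∀ a x, ‖x‖ < R → REF.Lop (alw u) (bew u) f a x = 0) →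
      ∃ v : Fin n → REF.E m → ℝ, (∀ a, ContDiff ℝ ∞ (v a)) ∧ (∀ a x, 3 / 8 ≤ ‖x‖ → v a x = 0) ∧
        (∀ a x, ‖x‖ < R - θ → Mop (fun b y => (u b y + f b y) + v b y) a x = 0) ∧
        ∀ a, N (wt (J + 2) 0 0) (per (v a)) ≤ ENNReal.ofReal (K * θ⁻¹ ^ (J + 2 * m) * F ^ 2) := by
  obtain ⟨ε₀, hε₀, Cm, hCm, hmin⟩ := REF.exists_minimalW hm n J
  obtain ⟨c, hc, hcoef⟩ := coef_bounds m n
  obtain ⟨Kχ, hKχ, hcut⟩ := cut_norm m J
  set P2 : ℝ := (2 * Real.pi) ^ 2 with hP2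
  have hP21 : 1 ≤ P2 := by
    have := Real.pi_gt_three
    rw [hP2]
    nlinarith
  have hP20 : 0 < P2 := by linarith
  set ε : ℝ := min (1 / 2) ε₀ / (2 * P2) with hε
  have hmn : 0 < min (1 / 2) ε₀ := lt_min (by norm_num) hε₀
  have hεP : P2 * ε ≤ 1 / 2 := by
    have h1 : P2 * ε = min (1 / 2) ε₀ / 2 := by
      rw [hε]
      field_simp
    rw [h1]
    have := min_le_left (1 / 2) ε₀
    linarith
  have hε0 : 0 < ε := by positivity
  have hε2 : 2 * ε ≤ ε₀ := by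
    have h1 : 2 * ε = min (1 / 2) ε₀ / P2 := by
      rw [hε]
      field_simp
    rw [h1]
    refine (div_le_self hmn.le hP21).trans (min_le_right _ _)
  set K1 : ℝ := Kχ * (2 * m ^ 2 * c * P2 ^ 2) with hK1
  have hK10 : 0 ≤ K1 := by positivity
  refine ⟨ε, (1 + Cm) * K1, hε0, by positivity, ?_⟩
  intro u f R θ F hu hu0 hf hf0 hNu hθ hθR hR hF hFε hδε hNf hMu hLf
  have hT : 0 ≤ θ⁻¹ ^ (J + 2 * m) := by positivity
  set δ : ℝ := K1 * θ⁻¹ ^ (J + 2 * m) * F ^ 2 with hδ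
  have hδ0 : 0 ≤ δ := by positivity
  have hδle : δ ≤ (1 + Cm) * K1 * θ⁻¹ ^ (J + 2 * m) * F ^ 2 := by
    have : 0 ≤ Cm * (K1 * θ⁻¹ ^ (J + 2 * m) * F ^ 2) := by positivity
    rw [hδ]
    linarith
  have hCδ : Cm * δ ≤ (1 + Cm) * K1 * θ⁻¹ ^ (J + 2 * m) * F ^ 2 := by
    rw [hδ]
    have : 0 ≤ K1 * θ⁻¹ ^ (J + 2 * m) * F ^ 2 := by positivity
    linarith
  have hp2 : P2 * F ≤ 1 / 2 := le_trans (by gcongr) hεP
  -- bounds of the coefficients
  have hb := (hcoef J u f (P2 * ε) (P2 * F) hu hu0 hf hf0 (by positivity) hεP (by positivity) hp2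
    (fun s => (REF.N_pd_real (hu s.2) (hu0 s.2) (hNu s.2)).1 s.1)
    (fun i j a => (REF.N_pd_real (hu a) (hu0 a) (hNu a)).2 i j)
    (fun s => (REF.N_pd_real (hf s.2) (hf0 s.2) (hNf s.2)).1 s.1)
    (fun i j a => (REF.N_pd_real (hf a) (hf0 a) (hNf a)).2 i j)).2.2
  -- the defect
  set χ : REF.E m → ℝ := ctf (R - θ) R with hχ
  have hχs : ContDiff ℝ ∞ χ := REF.contDiff_ctf _ _
  have hχ0 : ∀ x, R ≤ ‖x‖ → χ x = 0 := fun x hx => REF.ctf_zero (by linarith) (by linarith) hx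
  have hχ1 : ∀ x, ‖x‖ ≤ R - θ → χ x = 1 := fun x hx => REF.ctf_one (by linarith) (by linarith) hx
  have hχS : Sup χ := fun x hx => hχ0 x (by linarith)
  have hd : ∀ a, ContDiff ℝ ∞ fun x => χ x * dfc u f a x := fun a => hχs.mul (contDiff_dfc hu hf a)
  have hNd : ∀ a, N (wt J 0 0) (per fun x => χ x * dfc u f a x) ≤ ENNReal.ofReal δ := by
    intro a
    rw [per_dfc hu hu0 hf hf0 hχs hχS, REF.N_neg]
    refine ((REF.Wt_wt J 0 le_rfl).N_mul _ _).trans ?_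
    have h1 := hcut (R - θ) R (by linarith) (by linarith) (by linarith)
    have h2 : R - (R - θ) = θ := by ring
    rw [h2] at h1
    refine (mul_le_mul' h1 (hb a)).trans ?_
    rw [← ENNReal.ofReal_mul (by positivity)]
    refine ENNReal.ofReal_le_ofReal (le_of_eq ?_)
    rw [hδ, hK1]
    ring
  have hadd : ∀ a, per (fun x => u a x + f a x) = per (u a) + per (f a) := by
    intro a
    ext t
    have h1 : per (fun x => u a x + f a x) t = u a (repE t) + f a (repE t) :=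
      REF.per_apply (F := fun x => u a x + f a x) ((hu a).add (hf a)).continuous
        (fun x hx => by simp only [hu0 a x (by linarith), hf0 a x (by linarith), add_zero]) t
    rw [h1, ContinuousMap.add_apply, REF.per_apply (hu a).continuous (REF.sup_of (hu0 a)),
      REF.per_apply (hf a).continuous (REF.sup_of (hf0 a))]
  obtain ⟨v, hv1, hv2, hv3, hv4⟩ := hmin (fun a x => u a x + f a x)
    (fun a x => χ x * dfc u f a x) (fun a => (hu a).add (hf a)) hd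
    (fun a x hx => by simp only [hu0 a x hx, hf0 a x hx, add_zero])
    (fun a x hx => by simp only [hχS x hx, zero_mul])
    (fun a => by
      rw [hadd]
      refine (REF.N_add _ _).trans ((add_le_add (hNu a) (hNf a)).trans ?_)
      rw [← ENNReal.ofReal_add hε0.le hF]
      exact ENNReal.ofReal_le_ofReal (by linarith))
    δ hδ0 (hδle.trans (hδε.trans (by linarith))) hNd
  refine ⟨v, hv1, hv2, fun a x hx => ?_, fun a => (hv4 a).trans (ENNReal.ofReal_le_ofReal hCδ)⟩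
  rw [hv3 a x (by linarith), hχ1 x hx.le, one_mul]
  unfold dfc
  rw [hMu a x (by linarith), hLf a x (by linarith)]
  ring

/-! ### constants -/

/-- smallness of the reference -/
lemma exists_eps (m : ℕ) {c C1 ε₁ ε₂ : ℝ} (hc : 0 ≤ c) (hC1 : 0 ≤ C1) (hε₁ : 0 < ε₁)
    (hε₂ : 0 < ε₂) : ∃ ε : ℝ, 0 < ε ∧ ε ≤ 1 / 2 ∧ ε ≤ ε₂ ∧ C1 * ε ≤ ε₂ ∧
      (2 * Real.pi) ^ 2 * (C1 * ε) ≤ 1 / 2 ∧ c * ((2 * Real.pi) ^ 2 * (C1 * ε)) ≤ ε₁ ∧
      m ^ 2 * (c * ((2 * Real.pi) ^ 2 * (C1 * ε))) ≤ ε₁ := by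
  set P2 : ℝ := (2 * Real.pi) ^ 2 with hP2
  have hP21 : 1 ≤ P2 := by
    have := Real.pi_gt_three
    rw [hP2]
    nlinarith
  have hP20 : 0 < P2 := by linarith
  set Y : ℝ := (1 + c) * (1 + (m : ℝ) ^ 2) with hY
  have hY1 : 1 ≤ Y := by
    have : 0 ≤ c + m ^ 2 + c * (m : ℝ) ^ 2 := by positivity
    rw [hY]
    linarith
  have hY2 : c ≤ Y := by
    have : 0 ≤ m ^ 2 + c * (m : ℝ) ^ 2 := by positivity
    rw [hY]
    linarith
  have hY3 : m ^ 2 * c ≤ Y := by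
    have : 0 ≤ c + (m : ℝ) ^ 2 := by positivity
    rw [hY]
    linarith
  set Z : ℝ := P2 * (C1 + 1) with hZ
  have hZ1 : P2 * C1 ≤ Z := by rw [hZ]; gcongr; linarith
  have hZ2 : P2 ≤ Z := by rw [hZ]; nlinarith
  have hZ3 : C1 ≤ Z := by rw [hZ]; nlinarith
  have hZ0 : 0 < Z := by positivity
  have hY0 : 0 < Y := by positivity
  have hX0 : 0 < Z * Y := by positivity
  have hX1 : P2 * C1 ≤ Z * Y := by
    calc P2 * C1 ≤ Z * 1 := by rw [mul_one]; exact hZ1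
      _ ≤ Z * Y := by gcongr
  have hX2 : P2 ≤ Z * Y := by
    calc P2 ≤ Z * 1 := by rw [mul_one]; exact hZ2
      _ ≤ Z * Y := by gcongr
  have hX3 : C1 ≤ Z * Y := by
    calc C1 ≤ Z * 1 := by rw [mul_one]; exact hZ3
      _ ≤ Z * Y := by gcongr
  have hX4 : (P2 * C1) * c ≤ Z * Y := mul_le_mul hZ1 hY2 hc hZ0.le
  have hX5 : (P2 * C1) * (m ^ 2 * c) ≤ Z * Y := mul_le_mul hZ1 hY3 (by positivity) hZ0.le
  set μ : ℝ := min (1 / 2) (min ε₁ ε₂) with hμ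
  have hμ0 : 0 < μ := lt_min (by norm_num) (lt_min hε₁ hε₂)
  have hμ1 : μ ≤ 1 / 2 := min_le_left _ _
  have hμ2 : μ ≤ ε₁ := (min_le_right _ _).trans (min_le_left _ _)
  have hμ3 : μ ≤ ε₂ := (min_le_right _ _).trans (min_le_right _ _)
  have hXε : (Z * Y) * (μ / (Z * Y)) = μ := by
    field_simp
  have hε0 : 0 < μ / (Z * Y) := by positivity
  have hXm : ∀ {y : ℝ}, y ≤ Z * Y → y * (μ / (Z * Y)) ≤ μ := fun h => by
    conv_rhs => rw [← hXε]
    gcongr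
  refine ⟨μ / (Z * Y), hε0, ?_, ?_, (hXm hX3).trans hμ3, ?_, ?_, ?_⟩
  · have := hXm (hP21.trans hX2)
    linarith
  · have := hXm (hP21.trans hX2)
    linarith
  · have := hXm hX1
    linarith
  · have := hXm hX4
    linarith
  · have := hXm hX5
    linarith

/-- the big constant -/
lemma exists_big (m n e : ℕ) {CW K2 : ℝ} (hCW : 1 ≤ CW) (hK2 : 0 ≤ K2) : ∃ C : ℝ, 1 ≤ C ∧
    CW ≤ C ∧ 2 * CW ≤ C ∧ e + CW + CW ≤ C ∧ K2 * (2 * CW) ^ 2 ≤ C ∧
    (2 * Real.pi) ^ (2 * m + 1) * (2 * CW + K2 * (2 * CW) ^ 2) ≤ C ∧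
    CW + n * (K2 * (2 * CW) ^ 2) ≤ C := by
  have h1 : 0 ≤ K2 * (2 * CW) ^ 2 := by positivity
  have h2 : 0 ≤ (2 * Real.pi) ^ (2 * m + 1) * (2 * CW + K2 * (2 * CW) ^ 2) := by positivity
  have h3 : 0 ≤ CW + n * (K2 * (2 * CW) ^ 2) := by positivity
  have h4 : (0 : ℝ) ≤ e := by positivity
  refine ⟨2 * CW + e + K2 * (2 * CW) ^ 2 +
    (2 * Real.pi) ^ (2 * m + 1) * (2 * CW + K2 * (2 * CW) ^ 2) +
    (CW + n * (K2 * (2 * CW) ^ 2)), ?_, ?_, ?_, ?_, ?_, ?_, ?_⟩ <;> linarith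

/-- powers -/
lemma pow_bound {T C CW : ℝ} {e : ℕ} (hT : 1 ≤ T) (h : e + CW + CW ≤ C) :
    T ^ e * (T ^ CW) ^ 2 ≤ T ^ C := by
  have hT0 : 0 < T := by linarith
  rw [← Real.rpow_natCast T e, pow_two, ← Real.rpow_add hT0, ← Real.rpow_add hT0, ← add_assoc]
  exact Real.rpow_le_rpow_of_exponent_le hT h

/-! ### numbers -/

lemma num1 {CW C T' T B : ℝ} (h1 : 2 * CW ≤ C) (h2 : T' ≤ T) (hCW : 0 ≤ CW) (hT' : 0 ≤ T')
    (hB : 0 ≤ B) : 2 * CW * T' * B ≤ C * T * B := by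
  have h3 : 2 * CW * T' ≤ C * T := mul_le_mul h1 h2 hT' (by linarith)
  exact mul_le_mul_of_nonneg_right h3 hB

lemma num2 {K2 E CW T' T B : ℝ} (hK2 : 0 ≤ K2) (hE : E * T' ^ 2 ≤ T) :
    K2 * E * (2 * CW * T' * B) ^ 2 ≤ K2 * (2 * CW) ^ 2 * T * B ^ 2 := by
  have h1 : K2 * E * (2 * CW * T' * B) ^ 2 = (K2 * (2 * CW) ^ 2 * B ^ 2) * (E * T' ^ 2) := by ring
  have h2 : K2 * (2 * CW) ^ 2 * T * B ^ 2 = (K2 * (2 * CW) ^ 2 * B ^ 2) * T := by ring
  rw [h1, h2]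
  exact mul_le_mul_of_nonneg_left hE (by positivity)

lemma num3 {K3 C T B : ℝ} (h : K3 ≤ C) (hK3 : 0 ≤ K3) (hT : 0 ≤ T) (hB : B ^ 2 ≤ B) :
    K3 * T * B ^ 2 ≤ C * T * B := by
  have h1 : K3 * T ≤ C * T := mul_le_mul_of_nonneg_right h hT
  exact mul_le_mul h1 hB (sq_nonneg B) (mul_nonneg (hK3.trans h) hT)

lemma num4 {P CW K3 C T' T B : ℝ} (hP : 0 ≤ P) (h : P * (2 * CW + K3) ≤ C) (hCW : 0 ≤ CW)
    (hK3 : 0 ≤ K3) (hT' : 0 ≤ T') (h2 : T' ≤ T) (hB0 : 0 ≤ B) (hB : B ^ 2 ≤ B) :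
    P * (2 * CW * T' * B + K3 * T * B ^ 2) ≤ C * T * B := by
  have hT : 0 ≤ T := hT'.trans h2
  have h3 : 2 * CW * T' * B ≤ 2 * CW * T * B := num1 le_rfl h2 hCW hT' hB0
  have h4 : K3 * T * B ^ 2 ≤ K3 * T * B := num3 le_rfl hK3 hT hB
  calc P * (2 * CW * T' * B + K3 * T * B ^ 2) ≤ P * (2 * CW * T * B + K3 * T * B) :=
        mul_le_mul_of_nonneg_left (add_le_add h3 h4) hP
    _ = P * (2 * CW + K3) * (T * B) := by ring
    _ ≤ C * (T * B) := mul_le_mul_of_nonneg_right h (by positivity)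
    _ = _ := by ring

lemma num5 {CW K3 C T' T B D M : ℝ} {n : ℕ} (h : CW + n * K3 ≤ C) (hCW : 0 ≤ CW) (hK3 : 0 ≤ K3)
    (hT' : 0 ≤ T') (h2 : T' ≤ T) (hD : 0 ≤ D) (hM : 0 ≤ M) :
    CW * T' * (D + B ^ 2) * M + n * (K3 * T * B ^ 2 * M) ≤ C * T * (D + B ^ 2) * M := by
  have hT : 0 ≤ T := hT'.trans h2
  have h3 : CW * T' * (D + B ^ 2) * M ≤ CW * T * (D + B ^ 2) * M := by gcongr
  have h4 : n * (K3 * T * B ^ 2 * M) ≤ n * (K3 * T * (D + B ^ 2) * M) := by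
    gcongr
    linarith
  calc _ ≤ CW * T * (D + B ^ 2) * M + n * (K3 * T * (D + B ^ 2) * M) := add_le_add h3 h4
    _ = (CW + n * K3) * (T * (D + B ^ 2) * M) := by ring
    _ ≤ C * (T * (D + B ^ 2) * M) := mul_le_mul_of_nonneg_right h (by positivity)
    _ = _ := by ring

/-- no mass, nothing to do -/
lemma trivial_case {E : Type*} [MeasurableSpace E] {ν : Measure E} {z : Fin n → E → ℝ}
    (hz : ∀ a, Integrable (z a) ν) (hA : ∑ a, ∫ y, |z a y| ∂ν ≤ 0) (πx : E → REF.E m)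
    (φ : Fin n → REF.E m → ℝ) : ∫ y, ∑ b, z b y * φ b (πx y) ∂ν = 0 := by
  have hz0 : ∀ a, z a =ᵐ[ν] 0 := by
    intro a
    have h1 : ∫ y, |z a y| ∂ν ≤ 0 :=
      (Finset.single_le_sum (f := fun a => ∫ y, |z a y| ∂ν)
        (fun a _ => integral_nonneg fun y => abs_nonneg _) (Finset.mem_univ a)).trans hA
    have h2 : ∫ y, |z a y| ∂ν = 0 :=
      le_antisymm h1 (integral_nonneg fun y => abs_nonneg _)
    have h3 := (integral_eq_zero_iff_of_nonneg (fun y => abs_nonneg _) (hz a).abs).1 h2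
    filter_upwards [h3] with y hy
    exact abs_eq_zero.1 hy
  have h2 : (fun y => ∑ b, z b y * φ b (πx y)) =ᵐ[ν] fun _ => 0 := by
    have h3 : ∀ᵐ y ∂ν, ∀ b, z b y = 0 := by
      rw [ae_all_iff]
      exact fun b => hz0 b
    filter_upwards [h3] with y hy
    simp only [hy, zero_mul, Finset.sum_const_zero]
  rw [integral_congr_ae h2, integral_zero]

/-- bounds of the coefficients at a reference -/
theorem coef_ref (m n : ℕ) : ∃ c C1 : ℝ, 0 ≤ c ∧ 0 ≤ C1 ∧ ∀ (ε r : ℝ) (u : Fin n → REF.E m → ℝ),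
    WIN.Refe ε r u → 0 ≤ ε → (2 * Real.pi) ^ 2 * (C1 * ε) ≤ 1 / 2 →
      (∀ a, N (wt (2 * m + 1 + 2) 0 0) (per (u a)) ≤ ENNReal.ofReal (C1 * ε)) ∧
      (∀ i j, N (wt (2 * m + 1) 0 0) (per (alw u i j)) ≤
        ENNReal.ofReal (c * ((2 * Real.pi) ^ 2 * (C1 * ε)))) ∧
      ∀ a s, N (wt (2 * m + 1) 0 0) (per (bew u a s)) ≤
        ENNReal.ofReal (m ^ 2 * (c * ((2 * Real.pi) ^ 2 * (C1 * ε)))) := by
  obtain ⟨C1, hC1, hN⟩ := REF.N_per_le m (2 * m + 1 + 2)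
  obtain ⟨c, hc, hcoef⟩ := coef_bounds m n
  refine ⟨c, C1, hc, hC1, fun ε r u hu hε hsm => ?_⟩
  have hNu : ∀ a, N (wt (2 * m + 1 + 2) 0 0) (per (u a)) ≤ ENNReal.ofReal (C1 * ε) := fun a =>
    hN (u a) (hu.smooth a) (REF.sup_of (hu.supp a)) ε fun j hj x =>
      hu.small a j (by unfold WIN.sW; omega) x
  have hcf := hcoef (2 * m + 1) u (fun _ _ => 0) ((2 * Real.pi) ^ 2 * (C1 * ε)) 0 hu.smooth hu.supp
    (fun _ => contDiff_const) (fun _ _ _ => rfl) (by positivity) hsm le_rfl (by norm_num)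
    (fun s => (REF.N_pd_real (hu.smooth s.2) (hu.supp s.2) (hNu s.2)).1 s.1)
    (fun i j a => (REF.N_pd_real (hu.smooth a) (hu.supp a) (hNu a)).2 i j)
    (fun s => by
      have h1 : tU (fun (_ : Fin n) (_ : REF.E m) => (0 : ℝ)) s = 0 := by
        ext t
        rw [tU_apply (fun _ => contDiff_const) (fun _ _ _ => rfl)]
        unfold jt
        rw [REF.pd_zero]
        rfl
      rw [h1, REF.N_zero]
      exact bot_le)
    (fun i j a => by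
      have h1 : tP (fun (_ : Fin n) (_ : REF.E m) => (0 : ℝ)) i j a = 0 := by
        ext t
        rw [tP_apply (fun _ => contDiff_const) (fun _ _ _ => rfl), REF.pd_zero, REF.pd_zero]
        rfl
      rw [h1, REF.N_zero]
      exact bot_le)
  exact ⟨hNu, hcf.1, hcf.2.1⟩

/-- conclusions from the two corrections -/
lemma final_bounds (hn : 0 < n) {u f v : Fin n → REF.E m → ℝ} (hf1 : ∀ a, ContDiff ℝ ∞ (f a))
    (hf0 : ∀ a x, 3 / 8 ≤ ‖x‖ → f a x = 0) (hv1 : ∀ a, ContDiff ℝ ∞ (v a))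
    (hv0 : ∀ a x, 3 / 8 ≤ ‖x‖ → v a x = 0) {F G : ℝ} (hF : 0 ≤ F) (hG : 0 ≤ G)
    (hNf : ∀ a, N (wt (2 * m + 1 + 2) 0 0) (per (f a)) ≤ ENNReal.ofReal F)
    (hNv : ∀ a, N (wt (2 * m + 1 + 2) 0 0) (per (v a)) ≤ ENNReal.ofReal G) :
    (∀ a, ∀ k ≤ 2 * m + 1, ∀ x,
      ‖iteratedFDeriv ℝ k (fun x => (u a x + f a x) + v a x - u a x) x‖ ≤
        (2 * Real.pi) ^ (2 * m + 1) * (F + G)) ∧
    ∀ (I r : ℝ) (φ : Fin n → REF.E m → ℝ) (M : ℝ) (K : ℕ), r ≤ 3 / 8 → WIN.Tst K r M φ →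
      |I - ∫ x, ∑ b, ((u b x + f b x) + v b x - u b x) * φ b x| ≤
        |I - ∫ x, ∑ b, f b x * φ b x| + n * (G * M) := by
  constructor
  · intro a k hk x
    have e1 : (fun x => (u a x + f a x) + v a x - u a x) = fun x => f a x + v a x := by
      funext y
      ring
    have e2 : iteratedFDeriv ℝ k (fun x => f a x + v a x) x =
        iteratedFDeriv ℝ k (f a) x + iteratedFDeriv ℝ k (v a) x :=
      iteratedFDeriv_add_apply ((hf1 a).contDiffAt.of_le (by exact_mod_cast le_top))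
        ((hv1 a).contDiffAt.of_le (by exact_mod_cast le_top))
    have h1 := iter_le_N (hf1 a) (hf0 a) (show k ≤ 2 * m + 1 + 2 by omega) hF (hNf a) x
    have h2 := iter_le_N (hv1 a) (hv0 a) (show k ≤ 2 * m + 1 + 2 by omega) hG (hNv a) x
    have h3 : (2 * Real.pi) ^ k ≤ (2 * Real.pi) ^ (2 * m + 1) :=
      pow_le_pow_right₀ (by have := Real.pi_gt_three; linarith) hk
    rw [e1, e2]
    calc _ ≤ (2 * Real.pi) ^ k * F + (2 * Real.pi) ^ k * G :=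
          (norm_add_le _ _).trans (add_le_add h1 h2)
      _ = (2 * Real.pi) ^ k * (F + G) := by ring
      _ ≤ _ := by gcongr
  · intro I r φ M K hr hφ
    have hM : 0 ≤ M := (norm_nonneg _).trans (hφ.bd ⟨0, hn⟩ 0 (Nat.zero_le _) 0)
    have hφ38 : ∀ a x, 3 / 8 ≤ ‖x‖ → φ a x = 0 := fun a x hx => hφ.supp a x (by linarith)
    have hcsφ : ∀ b, HasCompactSupport (φ b) := fun b => REF.hcsD (REF.sup_of (hφ38 b))
    have hint1 : ∀ (w : Fin n → REF.E m → ℝ), (∀ a, ContDiff ℝ ∞ (w a)) → ∀ b,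
        Integrable fun x => w b x * φ b x := fun w hw b =>
      ((hw b).continuous.mul (hφ.smooth b).continuous).integrable_of_hasCompactSupport
        ((hcsφ b).mul_left)
    have hint : ∀ (w : Fin n → REF.E m → ℝ), (∀ a, ContDiff ℝ ∞ (w a)) →
        Integrable fun x => ∑ b, w b x * φ b x := fun w hw =>
      integrable_finsetSum _ fun b _ => hint1 w hw b
    have e1 : ∫ x, ∑ b, ((u b x + f b x) + v b x - u b x) * φ b x =
        (∫ x, ∑ b, f b x * φ b x) + ∫ x, ∑ b, v b x * φ b x := by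
      rw [← integral_add (hint f hf1) (hint v hv1)]
      congr 1
      funext x
      rw [← Finset.sum_add_distrib]
      refine Finset.sum_congr rfl fun b _ => ?_
      ring
    have h2 : |∫ x, ∑ b, v b x * φ b x| ≤ n * (G * M) := by
      rw [integral_finsetSum _ fun b _ => hint1 v hv1 b]
      refine (Finset.abs_sum_le_sum_abs _ _).trans ?_
      refine (Finset.sum_le_card_nsmul _ _ (G * M) fun b _ => ?_).trans (le_of_eq (by simp))
      refine abs_integral_le (hv1 b).continuous (hv0 b) (hφ.smooth b).continuous hG hM (hNv b)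
        (fun x => ?_) (hφ38 b)
      have := hφ.bd b 0 (Nat.zero_le _) x
      rwa [norm_iteratedFDeriv_zero, Real.norm_eq_abs] at this
    rw [e1]
    have e2 : I - ((∫ x, ∑ b, f b x * φ b x) + ∫ x, ∑ b, v b x * φ b x) =
        (I - ∫ x, ∑ b, f b x * φ b x) - ∫ x, ∑ b, v b x * φ b x := by ring
    rw [e2]
    exact (abs_sub _ _).trans (add_le_add le_rfl h2)

/-- **[LINW] from [WEYL]** -/
theorem linwStmt_of_weyl (E : Type*) [MeasurableSpace E] (hm : 0 < m) (hn : 0 < n)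
    (hweyl : WeylStmt E m n (2 * m + 1)) : WIN.LinwStmt E m n := by
  obtain ⟨ε₁, CW, hε₁, hCW, hW⟩ := hweyl
  obtain ⟨ε₂, K2, hε₂, hK2, hQ⟩ := quad_step hm n (2 * m + 1)
  obtain ⟨c, C1, hc, hC1, hcoef⟩ := coef_ref m n
  obtain ⟨ε, hε0, hε12, hεε₂, hC1ε, hPε, hcε, hmε⟩ := exists_eps m hc hC1 hε₁ hε₂
  obtain ⟨C, hC1', hC_CW, hC_2CW, hC_e, hC_K3, hC_D1, hC_D2⟩ :=
    exists_big m n (2 * m + 1 + 2 * m) hCW hK2
  refine ⟨ε, C, hε0, hC1', ?_⟩
  intro u r θ A D ν πx z hu hr1 hr2 hθ hθ2 hν hπ hz hsup hA hD htest hsmall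
  have hA0 : 0 ≤ A := (Finset.sum_nonneg fun a _ => integral_nonneg fun y => abs_nonneg _).trans hA
  have hT1 : 1 ≤ θ⁻¹ := by
    rw [one_le_inv₀ hθ]
    linarith
  have hT0 : 0 < θ⁻¹ := by positivity
  have hTC0 : 0 < θ⁻¹ ^ C := Real.rpow_pos_of_pos hT0 _
  -- trivial case
  rcases eq_or_lt_of_le (add_nonneg hA0 hD) with hAD | hAD
  · refine ⟨u, hu.smooth, fun a k hk x hx => ?_, fun a x hx => hu.exact a x (by linarith),
      fun φ M hφ => ?_⟩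
    · rw [← hAD, mul_zero]
      simp only [sub_self]
      rw [iteratedFDeriv_fun_zero]
      simp
    · have hM : 0 ≤ M := (norm_nonneg _).trans (hφ.bd ⟨0, hn⟩ 0 (Nat.zero_le _) 0)
      rw [trivial_case hz (by linarith) πx φ]
      simp only [sub_self, zero_mul, Finset.sum_const_zero, integral_zero, abs_zero]
      positivity
  have hTC : 1 ≤ θ⁻¹ ^ C := Real.one_le_rpow hT1 (by linarith)
  have hTCW : 0 < θ⁻¹ ^ CW := Real.rpow_pos_of_pos hT0 _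
  have hTCWC : θ⁻¹ ^ CW ≤ θ⁻¹ ^ C := Real.rpow_le_rpow_of_exponent_le hT1 hC_CW
  have hTe := pow_bound hT1 hC_e
  generalize hB : A + D = B at *
  generalize hTCe : θ⁻¹ ^ C = T at *
  generalize hTCWe : θ⁻¹ ^ CW = T' at *
  have hCW0 : 0 < CW := by linarith
  have hCT : 1 ≤ C * T := one_le_mul_of_one_le_of_one_le hC1' hTC
  have hB1 : B ≤ ε := by
    refine le_trans ?_ hsmall
    nlinarith
  have hBh : B ≤ 1 / 2 := hB1.trans hε12
  have hBB : B ^ 2 ≤ B := by nlinarith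
  obtain ⟨hNu, hal, hbe⟩ := hcoef ε r u hu hε0.le hPε
  -- the solution of the linear equation
  obtain ⟨f, hf1, hf2, hf3, hf4, hf5⟩ := hW (alw u) (bew u) (contDiff_alw hu.smooth)
    (contDiff_bew hu.smooth) (fun i j x hx => alw_zero hu.smooth hu.supp i j hx)
    (fun a q x hx => bew_zero hu.smooth hu.supp a q hx)
    (fun i j => (hal i j).trans (ENNReal.ofReal_le_ofReal hcε))
    (fun a s => (hbe a s).trans (ENNReal.ofReal_le_ofReal hmε)) r θ A D (B ^ 2) ν πx z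
    (by linarith) (by linarith) hθ (by linarith) hν hπ hz hsup hA hD (by positivity)
    (fun φ M hφ => by
      have h1 : (fun y => ∑ b, z b y * Lopt (alw u) (bew u) φ b (πx y)) =
          fun y => ∑ b, z b y * WIN.Ltw u φ b (πx y) := by
        funext y
        refine Finset.sum_congr rfl fun b _ => ?_
        rw [Lopt_eq hu.smooth hφ.smooth]
      rw [h1]
      exact htest φ M hφ)
  rw [hB, hTCWe] at hf4
  rw [hTCWe] at hf5
  have hF0 : 0 ≤ 2 * CW * T' * B := by positivity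
  have hFε : 2 * CW * T' * B ≤ ε := (num1 hC_2CW hTCWC hCW0.le hTCW.le hAD.le).trans hsmall
  have hNf : ∀ a, N (wt (2 * m + 1 + 2) 0 0) (per (f a)) ≤ ENNReal.ofReal (2 * CW * T' * B) :=
    fun a => (hf4 a).trans (ENNReal.ofReal_le_ofReal (by
      have h1 : B + B ^ 2 ≤ 2 * B := by linarith
      calc CW * T' * (B + B ^ 2) ≤ CW * T' * (2 * B) := by gcongr
        _ = _ := by ring))
  have hf0 : ∀ a x, 3 / 8 ≤ ‖x‖ → f a x = 0 := fun a x hx => hf2 a x (by linarith)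
  have hK30 : 0 ≤ K2 * (2 * CW) ^ 2 := by positivity
  have hδ : K2 * θ⁻¹ ^ (2 * m + 1 + 2 * m) * (2 * CW * T' * B) ^ 2 ≤
      K2 * (2 * CW) ^ 2 * T * B ^ 2 := num2 hK2 hTe
  have hδ0 : 0 ≤ K2 * (2 * CW) ^ 2 * T * B ^ 2 := by positivity
  have hδε : K2 * θ⁻¹ ^ (2 * m + 1 + 2 * m) * (2 * CW * T' * B) ^ 2 ≤ ε₂ :=
    hδ.trans (((num3 hC_K3 hK30 hTC0.le hBB).trans hsmall).trans hεε₂)
  obtain ⟨v, hv1, hv2, hv3, hv4⟩ := hQ u f (r - 4 * θ) θ (2 * CW * T' * B) hu.smooth hu.supp hf1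
    hf0 (fun a => (hNu a).trans (ENNReal.ofReal_le_ofReal hC1ε)) hθ (by linarith) (by linarith)
    hF0 (hFε.trans hεε₂) hδε hNf (fun a x hx => hu.exact a x (by linarith)) hf3
  have hNv : ∀ a, N (wt (2 * m + 1 + 2) 0 0) (per (v a)) ≤
      ENNReal.ofReal (K2 * (2 * CW) ^ 2 * T * B ^ 2) := fun a =>
    (hv4 a).trans (ENNReal.ofReal_le_ofReal hδ)
  obtain ⟨hfin1, hfin2⟩ := final_bounds (u := u) hn hf1 hf0 hv1 hv2 hF0 hδ0 hNf hNv
  refine ⟨fun b x => (u b x + f b x) + v b x, fun a => ((hu.smooth a).add (hf1 a)).add (hv1 a),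
    fun a k hk x _ => ?_, fun a x hx => hv3 a x (by linarith), fun φ M hφ => ?_⟩
  · exact (hfin1 a k hk x).trans
      (num4 (by positivity) hC_D1 hCW0.le hK30 hTCW.le hTCWC hAD.le hBB)
  · have hM : 0 ≤ M := (norm_nonneg _).trans (hφ.bd ⟨0, hn⟩ 0 (Nat.zero_le _) 0)
    have h1 := hf5 φ M ⟨hφ.smooth, fun a x hx => hφ.supp a x (by linarith),
      fun a k hk x => hφ.bd a k (by omega) x⟩
    exact ((hfin2 _ _ φ M _ (by linarith) hφ).trans (add_le_add h1 le_rfl)).trans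
      (num5 hC_D2 hCW0.le hK30 hTCW.le hTCWC hD hM)

end

end Vale.Agent.P214.LIN
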