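import Vale.Agent.P214.LIN.Interior

/-!
# P214, block LIN (WEYL): the adjoint relation and the size of the adjoint operator
-/

open MeasureTheory
open scoped ENNReal ContDiff Topology

namespace Vale.Agent.P214.LIN

open REF

noncomputable section

variable {m n : ℕ}

lemma int_L {c : Co m n} {s : ℕ} {ε : ℝ} (hc : c.Good s ε) {U : Fin n → E m → ℝ}
    (hU : ∀ a, ContDiff ℝ ∞ (U a)) {φ : E m → ℝ} (hφ : Sm φ) (a : Fin n) :
    ∫ x, c.L U a x * φ x = (∑ i, ∫ x, U a x * REF.pd i (REF.pd i φ) x) +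
      ((∑ i, ∑ j, ∫ x, U a x * REF.pd i (REF.pd j fun y => c.al i j y * φ y) x) +
        ∑ p : Fin m × Fin n, -∫ x, U p.2 x * REF.pd p.1 (fun y => c.be a p y * φ y) x) := by
  have e : (fun x => c.L U a x * φ x) = fun x => (∑ i, REF.pd i (REF.pd i (U a)) x * φ x) +
      ((∑ i, ∑ j, REF.pd i (REF.pd j (U a)) x * (c.al i j x * φ x)) +
        ∑ p : Fin m × Fin n, REF.pd p.1 (U p.2) x * (c.be a p x * φ x)) := by
    funext x
    unfold Co.L Lap
    rw [add_mul, add_mul, Finset.sum_mul, Finset.sum_mul, Finset.sum_mul]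
    congr 1
    congr 1
    · refine Finset.sum_congr rfl fun i _ => ?_
      rw [Finset.sum_mul]
      refine Finset.sum_congr rfl fun j _ => ?_
      ring
    · refine Finset.sum_congr rfl fun p _ => ?_
      ring
  have sa : ∀ i j, Sm fun x => c.al i j x * φ x := fun i j => (hc.sa i j).mul hφ
  have sb : ∀ p, Sm fun x => c.be a p x * φ x := fun p => (hc.sb a p).mul hφ
  have s1 : ∀ i, Sm fun x => REF.pd i (REF.pd i (U a)) x * φ x := fun i =>
    Sm.mul_left (contDiff_pd (contDiff_pd (hU a) i) i) hφ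
  have s2 : ∀ i j, Sm fun x => REF.pd i (REF.pd j (U a)) x * (c.al i j x * φ x) := fun i j =>
    Sm.mul_left (contDiff_pd (contDiff_pd (hU a) j) i) (sa i j)
  have s3 : ∀ p : Fin m × Fin n, Sm fun x => REF.pd p.1 (U p.2) x * (c.be a p x * φ x) := fun p =>
    Sm.mul_left (contDiff_pd (hU p.2) p.1) (sb p)
  have t1 : Sm fun x => ∑ i, REF.pd i (REF.pd i (U a)) x * φ x := Sm.sum _ fun i _ => s1 i
  have t2 : Sm fun x => ∑ i, ∑ j, REF.pd i (REF.pd j (U a)) x * (c.al i j x * φ x) :=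
    Sm.sum _ fun i _ => Sm.sum _ fun j _ => s2 i j
  have t3 : Sm fun x => ∑ p : Fin m × Fin n, REF.pd p.1 (U p.2) x * (c.be a p x * φ x) :=
    Sm.sum _ fun p _ => s3 p
  rw [e, integral_add t1.integrable (t2.add t3).integrable, integral_add t2.integrable t3.integrable,
    integral_finsetSum _ fun i _ => (s1 i).integrable,
    integral_finsetSum _ fun i _ => (Sm.sum _ fun j _ => s2 i j).integrable,
    integral_finsetSum _ fun p _ => (s3 p).integrable]
  congr 1
  · exact Finset.sum_congr rfl fun i _ => int_pd_pd (hU a) hφ i i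
  · congr 1
    · refine Finset.sum_congr rfl fun i _ => ?_
      rw [integral_finsetSum _ fun j _ => (s2 i j).integrable]
      exact Finset.sum_congr rfl fun j _ => int_pd_pd (hU a) (sa i j) i j
    · exact Finset.sum_congr rfl fun p _ => int_pd (hU p.2) (sb p) p.1

lemma int_Lt {c : Co m n} {s : ℕ} {ε : ℝ} (hc : c.Good s ε) {U : E m → ℝ}
    (hU : ContDiff ℝ ∞ U) {φ : Fin n → E m → ℝ} (hφ : ∀ a, Sm (φ a)) (b : Fin n) :
    ∫ x, U x * c.Lt φ b x = (∑ i, ∫ x, U x * REF.pd i (REF.pd i (φ b)) x) +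
      ((∑ i, ∑ j, ∫ x, U x * REF.pd i (REF.pd j fun y => c.al i j y * φ b y) x) -
        ∑ a, ∑ k, ∫ x, U x * REF.pd k (fun y => c.be a (k, b) y * φ a y) x) := by
  have e : (fun x => U x * c.Lt φ b x) = fun x => (∑ i, U x * REF.pd i (REF.pd i (φ b)) x) +
      ((∑ i, ∑ j, U x * REF.pd i (REF.pd j fun y => c.al i j y * φ b y) x) -
        ∑ a, ∑ k, U x * REF.pd k (fun y => c.be a (k, b) y * φ a y) x) := by
    funext x
    unfold Co.Lt Lap
    rw [mul_add, mul_sub, Finset.mul_sum, Finset.mul_sum, Finset.mul_sum]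
    simp only [Finset.mul_sum]
  have sa : ∀ i j, Sm fun x => c.al i j x * φ b x := fun i j => (hc.sa i j).mul (hφ b)
  have sb : ∀ a k, Sm fun x => c.be a (k, b) x * φ a x := fun a k => (hc.sb a (k, b)).mul (hφ a)
  have s1 : ∀ i, Sm fun x => U x * REF.pd i (REF.pd i (φ b)) x := fun i =>
    Sm.mul_left hU (((hφ b).pd i).pd i)
  have s2 : ∀ i j, Sm fun x => U x * REF.pd i (REF.pd j fun y => c.al i j y * φ b y) x :=
    fun i j => Sm.mul_left hU (((sa i j).pd j).pd i)
  have s3 : ∀ a k, Sm fun x => U x * REF.pd k (fun y => c.be a (k, b) y * φ a y) x := fun a k =>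
    Sm.mul_left hU ((sb a k).pd k)
  have t1 : Sm fun x => ∑ i, U x * REF.pd i (REF.pd i (φ b)) x := Sm.sum _ fun i _ => s1 i
  have t2 : Sm fun x => ∑ i, ∑ j, U x * REF.pd i (REF.pd j fun y => c.al i j y * φ b y) x :=
    Sm.sum _ fun i _ => Sm.sum _ fun j _ => s2 i j
  have t3 : Sm fun x => ∑ a, ∑ k, U x * REF.pd k (fun y => c.be a (k, b) y * φ a y) x :=
    Sm.sum _ fun a _ => Sm.sum _ fun k _ => s3 a k
  rw [e, integral_add t1.integrable (t2.sub t3).integrable, integral_sub t2.integrable t3.integrable,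
    integral_finsetSum _ fun i _ => (s1 i).integrable,
    integral_finsetSum _ fun i _ => (Sm.sum _ fun j _ => s2 i j).integrable,
    integral_finsetSum _ fun a _ => (Sm.sum _ fun k _ => s3 a k).integrable]
  congr 1
  congr 1
  · exact Finset.sum_congr rfl fun i _ => integral_finsetSum _ fun j _ => (s2 i j).integrable
  · exact Finset.sum_congr rfl fun a _ => integral_finsetSum _ fun k _ => (s3 a k).integrable

/-- **the adjoint relation** -/
lemma adj_rel {c : Co m n} {s : ℕ} {ε : ℝ} (hc : c.Good s ε) {U : Fin n → E m → ℝ}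
    (hU : ∀ a, ContDiff ℝ ∞ (U a)) {φ : Fin n → E m → ℝ} (hφ : ∀ a, Sm (φ a)) :
    ∑ a, ∫ x, c.L U a x * φ a x = ∑ b, ∫ x, U b x * c.Lt φ b x := by
  rw [Finset.sum_congr rfl fun a _ => int_L hc hU (hφ a) a,
    Finset.sum_congr rfl fun b _ => int_Lt hc (hU b) hφ b]
  have key : ∀ F : Fin n → Fin m → Fin n → ℝ,
      ∑ a, ∑ p : Fin m × Fin n, -F a p.1 p.2 = -∑ b, ∑ a, ∑ k, F a k b := by
    intro F
    calc ∑ a, ∑ p : Fin m × Fin n, -F a p.1 p.2 = ∑ a, ∑ k, ∑ b, -F a k b := by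
          simp only [Fintype.sum_prod_type]
      _ = ∑ a, ∑ b, ∑ k, -F a k b := Finset.sum_congr rfl fun a _ => Finset.sum_comm
      _ = ∑ b, ∑ a, ∑ k, -F a k b := Finset.sum_comm
      _ = _ := by simp only [Finset.sum_neg_distrib]
  have h := key fun a k b => ∫ x, U b x * REF.pd k (fun y => c.be a (k, b) y * φ a y) x
  simp only [Finset.sum_add_distrib, Finset.sum_sub_distrib]
  rw [sub_eq_add_neg, ← h]

lemma sm_Lt {c : Co m n} {s : ℕ} {ε : ℝ} (hc : c.Good s ε) {φ : Fin n → E m → ℝ}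
    (hφ : ∀ a, Sm (φ a)) (b : Fin n) : Sm (c.Lt φ b) := by
  unfold Co.Lt
  refine (hφ b).lap.add (Sm.sub (Sm.sum _ fun i _ => Sm.sum _ fun j _ => ?_)
    (Sm.sum _ fun a _ => Sm.sum _ fun k _ => ?_))
  · exact (((hc.sa i j).mul (hφ b)).pd j).pd i
  · exact ((hc.sb a (k, b)).mul (hφ a)).pd k

end

end Vale.Agent.P214.LIN
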