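import Vale.Agent.P214.LIN.Quad

/-!
# P214, block LINW: assembly of the linearisation step from [WEYL] and REF2W
-/

open MvPolynomial MeasureTheory Filter Topology
open scoped ENNReal ContDiff

namespace Vale.Agent.P214.LIN

open REF (pd per N wt Sup fc Wt Mop cp gm ctf qt repE)

noncomputable section

variable {m n : ℕ}

/-! ### derivatives from the Wiener norm -/

lemma iter_le_N {F : REF.E m → ℝ} (hF : ContDiff ℝ ∞ F) (h0 : ∀ x, 3 / 8 ≤ ‖x‖ → F x = 0)
    {q j : ℕ} (hj : j ≤ q) {B : ℝ} (hB : 0 ≤ B) (hN : N (wt q 0 0) (per F) ≤ ENNReal.ofReal B)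
    (x : REF.E m) : ‖iteratedFDeriv ℝ j F x‖ ≤ (2 * Real.pi) ^ j * B := by
  by_cases hx : ‖x‖ < 1 / 2
  · have hdec : REF.Dec (fc (per F)) := REF.dec_fc (J := 0) fun p => by
      rw [funext fun k => REF.wt_eq 0 p k]
      exact REF.N_per_ne_top hF (REF.sup_of h0) _
    have h1 : F =ᶠ[𝓝 x] REF.S (fc (per F)) := by
      have h2 : {y : REF.E m | ‖y‖ < 1 / 2} ∈ 𝓝 x :=
        (isOpen_lt continuous_norm continuous_const).mem_nhds hx
      filter_upwards [h2] with y hy
      rw [REF.fc_qt hdec, REF.per_qt hF.continuous (REF.sup_of h0) hy]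
    rw [(h1.iteratedFDeriv ℝ j).eq_of_nhds]
    refine (hdec.norm_iteratedFDeriv_le j x).trans ?_
    have hNt : N (wt q 0 0) (per F) ≠ ⊤ := ne_top_of_le_ne_top ENNReal.ofReal_ne_top hN
    have h3 := REF.summable_wr le_rfl hNt
    have h4 := REF.toReal_N le_rfl hNt
    have h5 : (N (wt q 0 0) (per F)).toReal ≤ B := ENNReal.toReal_le_of_le_ofReal hB hN
    have h6 : ∀ k, ‖fc (per F) k‖ * (2 * Real.pi * REF.sz k) ^ j ≤
        (2 * Real.pi) ^ j * (‖fc (per F) k‖ * REF.wr q 0 0 k) := by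
      intro k
      have h0 := REF.sz_nonneg k
      unfold REF.wr
      have h7 : REF.sz k ^ j ≤ (1 + REF.sz k) ^ q :=
        (pow_le_pow_left₀ h0 (by linarith) j).trans (pow_le_pow_right₀ (by linarith) hj)
      rw [mul_pow]
      calc ‖fc (per F) k‖ * ((2 * Real.pi) ^ j * REF.sz k ^ j)
          ≤ ‖fc (per F) k‖ * ((2 * Real.pi) ^ j * (1 + REF.sz k) ^ q) := by gcongr
        _ = _ := by
          rw [zero_mul, add_zero, pow_zero, mul_one]
          ring
    calc _ ≤ ∑' k, (2 * Real.pi) ^ j * (‖fc (per F) k‖ * REF.wr q 0 0 k) :=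
          (hdec.summable_pow j).tsum_le_tsum h6 (h3.mul_left _)
      _ = (2 * Real.pi) ^ j * (N (wt q 0 0) (per F)).toReal := by
          rw [tsum_mul_left, h4]
      _ ≤ _ := by gcongr
  · have h1 : F =ᶠ[𝓝 x] fun _ => 0 := by
      have h2 : {y : REF.E m | 3 / 8 < ‖y‖} ∈ 𝓝 x :=
        (isOpen_lt continuous_const continuous_norm).mem_nhds (by
          change 3 / 8 < ‖x‖
          linarith)
      filter_upwards [h2] with y hy
      exact h0 y (le_of_lt hy)
    rw [(h1.iteratedFDeriv ℝ j).eq_of_nhds, iteratedFDeriv_fun_zero]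
    simp only [Pi.zero_apply, norm_zero]
    positivity

/-- pairing with a bounded function -/
lemma abs_integral_le {F ψ : REF.E m → ℝ} (hF : Continuous F) (h0 : ∀ x, 3 / 8 ≤ ‖x‖ → F x = 0)
    (hψ : Continuous ψ) {B M : ℝ} (hB : 0 ≤ B) (hM : 0 ≤ M) {q : ℕ}
    (hN : N (wt q 0 0) (per F) ≤ ENNReal.ofReal B) (hψM : ∀ x, |ψ x| ≤ M)
    (hψ0 : ∀ x, 3 / 8 ≤ ‖x‖ → ψ x = 0) : |∫ x, F x * ψ x| ≤ B * M := by
  have hs : Sup F := REF.sup_of h0
  have hs' : Sup ψ := REF.sup_of hψ0
  have h1 : per (fun x => F x * ψ x) = per F * per ψ := by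
    ext t
    have h2 : per (fun x => F x * ψ x) t = F (repE t) * ψ (repE t) :=
      REF.per_apply (F := fun x => F x * ψ x) (hF.mul hψ)
        (fun x hx => by simp only [hs x hx, zero_mul]) t
    rw [h2, ContinuousMap.mul_apply, REF.per_apply hF hs, REF.per_apply hψ hs']
  have h3 : ∫ x, F x * ψ x = REF.pr (per F) (per ψ) := by
    unfold REF.pr
    rw [← h1]
    exact (REF.mn_per (F := fun x => F x * ψ x) (hF.mul hψ)
      (fun x hx => by simp only [hs x hx, zero_mul])).symm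
  rw [h3]
  refine (REF.abs_pr_le _ _).trans ?_
  have h4 : ‖per F‖ ≤ B := (REF.Wt_wt q 0 le_rfl).norm_le_real hB hN
  have h5 : ‖per ψ‖ ≤ M := by
    refine (ContinuousMap.norm_le _ hM).2 fun t => ?_
    rw [REF.per_apply hψ hs', Real.norm_eq_abs]
    exact hψM _
  gcongr

/-! ### bounds of the coefficients and of the quadratic remainder -/

/-- all constants of the polynomial estimates -/
theorem coef_bounds (m n : ℕ) : ∃ c : ℝ, 0 ≤ c ∧ ∀ (q : ℕ) (u f : Fin n → REF.E m → ℝ) (p η : ℝ),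
    (∀ a, ContDiff ℝ ∞ (u a)) → (∀ a x, 3 / 8 ≤ ‖x‖ → u a x = 0) →
    (∀ a, ContDiff ℝ ∞ (f a)) → (∀ a x, 3 / 8 ≤ ‖x‖ → f a x = 0) →
    0 ≤ p → p ≤ 1 / 2 → 0 ≤ η → η ≤ 1 / 2 →
    (∀ s, N (wt q 0 0) (tU u s) ≤ ENNReal.ofReal p) →
    (∀ i j a, N (wt q 0 0) (tP u i j a) ≤ ENNReal.ofReal p) →
    (∀ s, N (wt q 0 0) (tU f s) ≤ ENNReal.ofReal η) →
    (∀ i j a, N (wt q 0 0) (tP f i j a) ≤ ENNReal.ofReal η) →
      (∀ i j, N (wt q 0 0) (per (alw u i j)) ≤ ENNReal.ofReal (c * p)) ∧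
      (∀ a s, N (wt q 0 0) (per (bew u a s)) ≤ ENNReal.ofReal (m ^ 2 * (c * p))) ∧
      ∀ a, N (wt q 0 0) (tR u f a) ≤ ENNReal.ofReal (2 * m ^ 2 * c * η ^ 2) := by
  obtain ⟨C, hCt, hC⟩ := REF.poly_all (m := m) (cp m n) REF.constantCoeff_cp
  set c : ℝ := C.toReal with hc
  have hc0 : 0 ≤ c := ENNReal.toReal_nonneg
  have hCc : C = ENNReal.ofReal c := (ENNReal.ofReal_toReal hCt).symm
  refine ⟨c, hc0, ?_⟩
  intro q u f p η hu hu0 hf hf0 hp hp2 hη hη2 b1 b2 b3 b4
  have hw : Wt (wt (m := m) q 0 0) := REF.Wt_wt q 0 le_rfl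
  have hle1 : ∀ {y : ℝ}, y ≤ 1 → ENNReal.ofReal y ≤ 1 := fun h => by
    rw [← ENNReal.ofReal_one]
    exact ENNReal.ofReal_le_ofReal h
  have key := hC (wt q 0 0) hw (tU u) (tU f) (ENNReal.ofReal η) (ENNReal.ofReal p)
    (fun s => (b1 s).trans (hle1 (by linarith)))
    (fun s => by
      refine (REF.N_add _ _).trans ((add_le_add (b1 s) (b3 s)).trans ?_)
      rw [← ENNReal.ofReal_add hp hη]
      exact hle1 (by linarith)) b3 b1
  refine ⟨fun i j => ?_, fun a s => ?_, fun a => ?_⟩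
  · rw [per_alw hu hu0, REF.N_neg, ENNReal.ofReal_mul hc0, ← hCc]
    exact (key i j).1
  · rw [per_bew hu hu0, REF.N_neg]
    refine (REF.N_sum _ _).trans ?_
    calc _ ≤ ∑ i : Fin m, ∑ j : Fin m, ENNReal.ofReal (c * p) := by
          refine Finset.sum_le_sum fun i _ => (REF.N_sum _ _).trans (Finset.sum_le_sum fun j _ => ?_)
          refine (hw.N_mul _ _).trans ?_
          rw [ENNReal.ofReal_mul hc0, ← hCc]
          exact mul_le_mul' ((key i j).2.1 s) (b2 i j a)
      _ = _ := by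
          simp only [Finset.sum_const, Finset.card_univ, Fintype.card_fin, nsmul_eq_mul]
          rw [← ENNReal.ofReal_natCast, ← ENNReal.ofReal_mul (by positivity),
            ← ENNReal.ofReal_mul (by positivity)]
          congr 1
          ring
  · unfold tR
    refine (REF.N_sum _ _).trans ?_
    calc _ ≤ ∑ i : Fin m, ∑ j : Fin m, ENNReal.ofReal (2 * (c * η ^ 2)) := by
          refine Finset.sum_le_sum fun i _ => (REF.N_sum _ _).trans (Finset.sum_le_sum fun j _ => ?_)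
          refine (REF.N_add _ _).trans ?_
          have k3 := (key i j).2.2.1
          have k4 := (key i j).2.2.2
          rw [hCc, ← ENNReal.ofReal_mul hc0] at k3
          rw [hCc, ← ENNReal.ofReal_pow hη, ← ENNReal.ofReal_mul hc0] at k4
          have e1 : (ENNReal.ofReal (c * η ^ 2)) * ENNReal.ofReal p ≤ ENNReal.ofReal (c * η ^ 2) := by
            rw [← ENNReal.ofReal_mul (by positivity)]
            refine ENNReal.ofReal_le_ofReal ?_
            have : 0 ≤ c * η ^ 2 := by positivity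
            nlinarith
          have e2 : (ENNReal.ofReal (c * η)) * ENNReal.ofReal η = ENNReal.ofReal (c * η ^ 2) := by
            rw [← ENNReal.ofReal_mul (by positivity)]
            congr 1
            ring
          have e3 : ENNReal.ofReal (2 * (c * η ^ 2)) =
              ENNReal.ofReal (c * η ^ 2) + ENNReal.ofReal (c * η ^ 2) := by
            rw [← ENNReal.ofReal_add (by positivity) (by positivity)]
            congr 1
            ring
          rw [e3]
          refine add_le_add ((hw.N_mul _ _).trans ((mul_le_mul' k4 (b2 i j a)).trans e1)) ?_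
          rw [← e2]
          exact (hw.N_mul _ _).trans (mul_le_mul' k3 (b4 i j a))
      _ = _ := by
          simp only [Finset.sum_const, Finset.card_univ, Fintype.card_fin, nsmul_eq_mul]
          rw [← ENNReal.ofReal_natCast, ← ENNReal.ofReal_mul (by positivity),
            ← ENNReal.ofReal_mul (by positivity)]
          congr 1
          ring

/-- the norm of a cut-off function -/
theorem cut_norm (m q : ℕ) : ∃ K : ℝ, 0 ≤ K ∧ ∀ a b : ℝ, 0 < a → a < b → b ≤ 3 / 8 →
    N (wt q 0 0) (per (ctf (m := m) a b)) ≤ ENNReal.ofReal (K * (b - a)⁻¹ ^ (q + 2 * m)) := by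
  obtain ⟨C1, hC1, hN⟩ := REF.N_per_le m q
  choose B hB0 hB using REF.ctf_bound (m := m)
  set M : ℝ := ∑ i ∈ Finset.range (q + 2 * m + 1), B i with hM
  have hM0 : 0 ≤ M := Finset.sum_nonneg fun i _ => hB0 i
  refine ⟨C1 * M, by positivity, fun a b ha hab hb => ?_⟩
  have h1 : 1 ≤ (b - a)⁻¹ := by
    rw [one_le_inv₀ (by linarith)]
    linarith
  rw [mul_assoc]
  refine hN _ (REF.contDiff_ctf a b) (fun x hx => REF.ctf_zero ha hab (by linarith)) _
    fun j hj x => ?_
  refine (hB j a b ha hab (by linarith) x).trans ?_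
  have h2 : B j ≤ M := Finset.single_le_sum (f := B) (fun i _ => hB0 i)
    (Finset.mem_range.2 (by omega))
  have h3 : (b - a)⁻¹ ^ j ≤ (b - a)⁻¹ ^ (q + 2 * m) := pow_le_pow_right₀ h1 hj
  gcongr

end

end Vale.Agent.P214.LIN
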