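import Vale.Agent.P214.REF.Glob
import Vale.Agent.P214.REF.Cut

/-!
# P214, block LIN (WEYL): calculus with the weighted Wiener norms of compactly supported functions
-/

open MeasureTheory UnitAddTorus
open scoped ENNReal ContDiff FourierTransform Topology

namespace Vale.Agent.P214.LIN

open REF

noncomputable section

variable {m : ℕ}

/-! ### supports -/

/-- vanishing outside of a ball of radius less than `7/16` -/
def SP (F : E m → ℝ) : Prop := ∃ r : ℝ, r < 7 / 16 ∧ ∀ x, r ≤ ‖x‖ → F x = 0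

lemma SP.sup {F : E m → ℝ} (h : SP F) : Sup F := by
  obtain ⟨r, hr, h⟩ := h
  exact fun x hx => h x (hr.le.trans hx)

lemma SP.pd {F : E m → ℝ} (h : SP F) (i : Fin m) : SP (REF.pd i F) := by
  obtain ⟨r, hr, h⟩ := h
  exact ⟨(r + 7 / 16) / 2, by linarith, zero_pd (by linarith) h i⟩

lemma SP.mul_right {F G : E m → ℝ} (h : SP F) : SP fun x => F x * G x := by
  obtain ⟨r, hr, h⟩ := h
  exact ⟨r, hr, fun x hx => by simp only [h x hx, zero_mul]⟩

lemma SP.mul_left {F G : E m → ℝ} (h : SP G) : SP fun x => F x * G x := by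
  obtain ⟨r, hr, h⟩ := h
  exact ⟨r, hr, fun x hx => by simp only [h x hx, mul_zero]⟩

lemma SP.add {F G : E m → ℝ} (hF : SP F) (hG : SP G) : SP fun x => F x + G x := by
  obtain ⟨r, hr, h⟩ := hF
  obtain ⟨r', hr', h'⟩ := hG
  exact ⟨max r r', max_lt hr hr', fun x hx => by
    simp only [h x ((le_max_left _ _).trans hx), h' x ((le_max_right _ _).trans hx), add_zero]⟩

lemma SP.neg {F : E m → ℝ} (hF : SP F) : SP fun x => -F x := by
  obtain ⟨r, hr, h⟩ := hF
  exact ⟨r, hr, fun x hx => by simp only [h x hx, neg_zero]⟩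

lemma SP.zero : SP fun _ : E m => (0 : ℝ) := ⟨0, by norm_num, fun _ _ => rfl⟩

lemma SP.sum {ι : Type*} (s : Finset ι) {F : ι → E m → ℝ} (hF : ∀ i ∈ s, SP (F i)) :
    SP fun x => ∑ i ∈ s, F i x := by
  classical
  induction s using Finset.induction_on with
  | empty =>
    simp only [Finset.sum_empty]
    exact SP.zero
  | insert i s hi ih =>
    simp only [Finset.sum_insert hi]
    exact (hF i (Finset.mem_insert_self _ _)).add (ih fun j hj => hF j (Finset.mem_insert_of_mem hj))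

/-! ### smooth functions with support inside -/

/-- smooth, supported inside -/
structure Sm (F : E m → ℝ) : Prop where
  cd : ContDiff ℝ ∞ F
  sp : SP F

lemma Sm.cont {F : E m → ℝ} (h : Sm F) : Continuous F := h.cd.continuous

lemma Sm.sup {F : E m → ℝ} (h : Sm F) : Sup F := h.sp.sup

lemma Sm.pd {F : E m → ℝ} (h : Sm F) (i : Fin m) : Sm (REF.pd i F) :=
  ⟨contDiff_pd h.cd i, h.sp.pd i⟩

lemma Sm.mul_right {F G : E m → ℝ} (hF : Sm F) (hG : ContDiff ℝ ∞ G) : Sm fun x => F x * G x :=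
  ⟨hF.cd.mul hG, hF.sp.mul_right⟩

lemma Sm.mul_left {F G : E m → ℝ} (hF : ContDiff ℝ ∞ F) (hG : Sm G) : Sm fun x => F x * G x :=
  ⟨hF.mul hG.cd, hG.sp.mul_left⟩

lemma Sm.mul {F G : E m → ℝ} (hF : Sm F) (hG : Sm G) : Sm fun x => F x * G x :=
  hF.mul_right hG.cd

lemma Sm.add {F G : E m → ℝ} (hF : Sm F) (hG : Sm G) : Sm fun x => F x + G x :=
  ⟨hF.cd.add hG.cd, hF.sp.add hG.sp⟩

lemma Sm.neg {F : E m → ℝ} (hF : Sm F) : Sm fun x => -F x := ⟨hF.cd.neg, hF.sp.neg⟩

lemma Sm.sub {F G : E m → ℝ} (hF : Sm F) (hG : Sm G) : Sm fun x => F x - G x := by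
  simpa only [sub_eq_add_neg] using hF.add hG.neg

lemma Sm.zero : Sm fun _ : E m => (0 : ℝ) := ⟨contDiff_const, SP.zero⟩

lemma Sm.sum {ι : Type*} (s : Finset ι) {F : ι → E m → ℝ} (hF : ∀ i ∈ s, Sm (F i)) :
    Sm fun x => ∑ i ∈ s, F i x :=
  ⟨ContDiff.sum fun i hi => (hF i hi).cd, SP.sum s fun i hi => (hF i hi).sp⟩

/-! ### algebra of periodisations -/

lemma per_add {F G : E m → ℝ} (hF : Sm F) (hG : Sm G) :
    per (fun x => F x + G x) = per F + per G := by
  ext t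
  rw [per_apply (hF.add hG).cont (hF.add hG).sup, ContinuousMap.add_apply,
    per_apply hF.cont hF.sup, per_apply hG.cont hG.sup]

lemma per_neg {F : E m → ℝ} (hF : Sm F) : per (fun x => -F x) = -per F := by
  ext t
  rw [per_apply hF.neg.cont hF.neg.sup, ContinuousMap.neg_apply, per_apply hF.cont hF.sup]

lemma per_mul {F G : E m → ℝ} (hF : Sm F) (hG : Sm G) :
    per (fun x => F x * G x) = per F * per G := by
  ext t
  rw [per_apply (hF.mul hG).cont (hF.mul hG).sup, ContinuousMap.mul_apply,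
    per_apply hF.cont hF.sup, per_apply hG.cont hG.sup]

lemma qt_repE (t : Tor m) : qt (repE t) = t := by
  funext i
  exact coe_rep (t i)

lemma continuous_qt : Continuous (qt : E m → Tor m) := by
  refine continuous_pi fun i => ?_
  exact (AddCircle.continuous_mk' 1).comp (EuclideanSpace.proj i).continuous

lemma per_mul_tor {F : E m → ℝ} (hF : Sm F) (g : C(Tor m, ℝ)) :
    per (fun x => F x * g (qt x)) = per F * g := by
  have h1 : Continuous fun x => F x * g (qt x) := hF.cont.mul (g.continuous.comp continuous_qt)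
  have h2 : Sup fun x => F x * g (qt x) := fun x hx => by simp only [hF.sup x hx, zero_mul]
  ext t
  rw [per_apply h1 h2, ContinuousMap.mul_apply, per_apply hF.cont hF.sup, qt_repE]

lemma per_zero : per (fun _ : E m => (0 : ℝ)) = 0 := by
  ext t
  rw [per_apply Sm.zero.cont Sm.zero.sup]
  rfl

/-! ### the norms -/

/-- weighted Wiener norm -/
def nn (q : ℕ) (F : E m → ℝ) : ℝ := (N (wt q 0 0) (per F)).toReal

lemma nn_nonneg (q : ℕ) (F : E m → ℝ) : 0 ≤ nn q F := ENNReal.toReal_nonneg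

lemma Sm.ne_top {F : E m → ℝ} (hF : Sm F) (q : ℕ) : N (wt q 0 0) (per F) ≠ ⊤ :=
  N_per_ne_top hF.cd hF.sup q

lemma Sm.N_eq {F : E m → ℝ} (hF : Sm F) (q : ℕ) :
    N (wt q 0 0) (per F) = ENNReal.ofReal (nn q F) := (ENNReal.ofReal_toReal (hF.ne_top q)).symm

lemma nn_le_of {q : ℕ} {F : E m → ℝ} {M : ℝ} (hM : 0 ≤ M)
    (h : N (wt q 0 0) (per F) ≤ ENNReal.ofReal M) : nn q F ≤ M :=
  ENNReal.toReal_le_of_le_ofReal hM h

lemma Sm.le_of {F : E m → ℝ} (hF : Sm F) {q : ℕ} {M : ℝ} (h : nn q F ≤ M) :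
    N (wt q 0 0) (per F) ≤ ENNReal.ofReal M := by
  rw [hF.N_eq]
  exact ENNReal.ofReal_le_ofReal h

lemma nn_zero (q : ℕ) : nn q (fun _ : E m => (0 : ℝ)) = 0 := by
  unfold nn
  rw [per_zero, N_zero]
  rfl

lemma nn_add {F G : E m → ℝ} (hF : Sm F) (hG : Sm G) (q : ℕ) :
    nn q (fun x => F x + G x) ≤ nn q F + nn q G := by
  refine nn_le_of (add_nonneg (nn_nonneg _ _) (nn_nonneg _ _)) ?_
  rw [per_add hF hG, ENNReal.ofReal_add (nn_nonneg _ _) (nn_nonneg _ _), ← hF.N_eq, ← hG.N_eq]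
  exact N_add _ _

lemma nn_neg {F : E m → ℝ} (hF : Sm F) (q : ℕ) : nn q (fun x => -F x) = nn q F := by
  unfold nn
  rw [per_neg hF, N_neg]

lemma nn_sub {F G : E m → ℝ} (hF : Sm F) (hG : Sm G) (q : ℕ) :
    nn q (fun x => F x - G x) ≤ nn q F + nn q G := by
  have h := nn_add hF hG.neg q
  rw [nn_neg hG] at h
  simpa only [sub_eq_add_neg] using h

lemma nn_mul {F G : E m → ℝ} (hF : Sm F) (hG : Sm G) (q : ℕ) :
    nn q (fun x => F x * G x) ≤ nn q F * nn q G := by
  refine nn_le_of (mul_nonneg (nn_nonneg _ _) (nn_nonneg _ _)) ?_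
  rw [per_mul hF hG, ENNReal.ofReal_mul (nn_nonneg _ _), ← hF.N_eq, ← hG.N_eq]
  exact (Wt_wt q 0 le_rfl).N_mul _ _

lemma nn_sum {ι : Type*} (s : Finset ι) {F : ι → E m → ℝ} (hF : ∀ i ∈ s, Sm (F i)) (q : ℕ) :
    nn q (fun x => ∑ i ∈ s, F i x) ≤ ∑ i ∈ s, nn q (F i) := by
  classical
  induction s using Finset.induction_on with
  | empty =>
    simp only [Finset.sum_empty, nn_zero]
    exact le_rfl
  | insert i s hi ih =>
    simp only [Finset.sum_insert hi]
    refine (nn_add (hF i (Finset.mem_insert_self _ _))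
      (Sm.sum s fun j hj => hF j (Finset.mem_insert_of_mem hj)) q).trans ?_
    gcongr
    exact ih fun j hj => hF j (Finset.mem_insert_of_mem hj)

lemma wr_mono {q q' : ℕ} (h : q ≤ q') (k : Fin m → ℤ) : wr q 0 0 k ≤ wr q' 0 0 k := by
  unfold wr
  simp only [pow_zero, mul_one]
  exact pow_le_pow_right₀ (by linarith [sz_nonneg k]) h

lemma wt_mono {q q' : ℕ} (h : q ≤ q') (k : Fin m → ℤ) : wt q 0 0 k ≤ wt q' 0 0 k :=
  ENNReal.ofReal_le_ofReal (wr_mono h k)

lemma nn_mono {F : E m → ℝ} (hF : Sm F) {q q' : ℕ} (h : q ≤ q') : nn q F ≤ nn q' F := by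
  refine nn_le_of (nn_nonneg _ _) ?_
  rw [← hF.N_eq]
  exact N_mono (wt_mono h) _

/-! ### coefficients of derivatives -/

lemma Sm.dec {F : E m → ℝ} (hF : Sm F) : Dec (fc (per F)) :=
  dec_fc (J := 0) fun p => by
    rw [funext fun k => wt_eq 0 p k]
    exact hF.ne_top _

lemma fc_per_pd {F : E m → ℝ} (hF : Sm F) (i : Fin m) (k : Fin m → ℤ) :
    fc (per (REF.pd i F)) k = dc i (fc (per F)) k := by
  have hcd : ContDiff ℝ ∞ (fun x : E m => (F x : ℂ)) := Complex.ofRealCLM.contDiff.comp hF.cd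
  have hcsC : HasCompactSupport (fun x : E m => (F x : ℂ)) := REF.hcs hF.sup
  have hint : Integrable (fun x : E m => (F x : ℂ)) :=
    hcd.continuous.integrable_of_hasCompactSupport hcsC
  have hcd' : Continuous (fderiv ℝ (fun x : E m => (F x : ℂ))) := hcd.continuous_fderiv (by simp)
  have hint' : Integrable (fderiv ℝ (fun x : E m => (F x : ℂ))) :=
    hcd'.integrable_of_hasCompactSupport (hcsC.fderiv ℝ)
  have h1 := Real.fourier_fderiv hint (hcd.differentiable (by simp)) hint'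
  have h2 : (fun x : E m => ((REF.pd i F x : ℝ) : ℂ)) =
      fun x => fderiv ℝ (fun x : E m => (F x : ℂ)) x (bs i) := by
    funext x
    have h3 : HasFDerivAt (fun x : E m => (F x : ℂ)) (Complex.ofRealCLM.comp (fderiv ℝ F x)) x :=
      Complex.ofRealCLM.hasFDerivAt.comp x (hF.cd.differentiable (by simp)).differentiableAt.hasFDerivAt
    rw [h3.fderiv]
    rfl
  unfold dc
  rw [fc_per (hF.pd i).cont (hF.pd i).sup, h2, ← Real.fourier_continuousLinearMap_apply hint', h1,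
    fc_per hF.cont hF.sup, VectorFourier.fourierSMulRight_apply]
  have h4 : ((-innerSL ℝ : E m →L[ℝ] (E m →L[ℝ] ℝ)) (vec k)) (bs i) = -(k i : ℝ) := by
    change -(inner ℝ (vec k) (bs i)) = _
    congr 1
    unfold bs vec
    simp [EuclideanSpace.inner_single_right]
  rw [h4]
  simp only [smul_eq_mul, Complex.real_smul]
  push_cast
  ring

/-! ### the norm as a real series -/

lemma Sm.summable {F : E m → ℝ} (hF : Sm F) (q : ℕ) :
    Summable fun k => ‖fc (per F) k‖ * (1 + sz k) ^ q := hF.dec q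

lemma Sm.nn_eq {F : E m → ℝ} (hF : Sm F) (q : ℕ) :
    nn q F = ∑' k, ‖fc (per F) k‖ * (1 + sz k) ^ q := by
  unfold nn
  rw [toReal_N le_rfl (hF.ne_top q)]
  unfold wr
  simp only [pow_zero, mul_one]

lemma one_le_sz (k : Fin m → ℤ) : 1 ≤ 1 + sz k := by linarith [sz_nonneg k]

lemma Sm.norm_fc_le {F : E m → ℝ} (hF : Sm F) (q : ℕ) (k : Fin m → ℤ) :
    ‖fc (per F) k‖ * (1 + sz k) ^ q ≤ nn q F := by
  rw [hF.nn_eq]
  exact (hF.summable q).le_tsum k fun l _ => by
    have := one_le_sz l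
    positivity

lemma nn_pd {F : E m → ℝ} (hF : Sm F) (i : Fin m) (q : ℕ) :
    nn q (REF.pd i F) ≤ 2 * Real.pi * nn (q + 1) F := by
  rw [(hF.pd i).nn_eq, hF.nn_eq, ← tsum_mul_left]
  refine ((hF.pd i).summable q).tsum_le_tsum (fun k => ?_) ((hF.summable (q + 1)).mul_left _)
  rw [fc_per_pd hF]
  unfold dc
  rw [norm_mul, norm_fac]
  have h1 := abs_le_sz k i
  have h2 := one_le_sz k
  have h3 := Real.pi_pos
  calc 2 * Real.pi * |(k i : ℝ)| * ‖fc (per F) k‖ * (1 + sz k) ^ q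
      ≤ 2 * Real.pi * (1 + sz k) * ‖fc (per F) k‖ * (1 + sz k) ^ q := by
        gcongr
        linarith
    _ = _ := by ring

lemma nn_pd_pd {F : E m → ℝ} (hF : Sm F) (i j : Fin m) (q : ℕ) :
    nn q (REF.pd i (REF.pd j F)) ≤ (2 * Real.pi) ^ 2 * nn (q + 2) F := by
  have h1 := nn_pd (hF.pd j) i q
  have h2 := nn_pd hF j (q + 1)
  have h3 := Real.pi_pos
  calc _ ≤ 2 * Real.pi * nn (q + 1) (REF.pd j F) := h1
    _ ≤ 2 * Real.pi * (2 * Real.pi * nn (q + 1 + 1) F) := by gcongr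
    _ = _ := by ring

/-- the Laplace operator -/
def Lap (F : E m → ℝ) (x : E m) : ℝ := ∑ i, REF.pd i (REF.pd i F) x

lemma Sm.lap {F : E m → ℝ} (hF : Sm F) : Sm (Lap F) := Sm.sum _ fun i _ => (hF.pd i).pd i

lemma per_sum {ι : Type*} (s : Finset ι) {F : ι → E m → ℝ} (hF : ∀ i ∈ s, Sm (F i)) :
    per (fun x => ∑ i ∈ s, F i x) = ∑ i ∈ s, per (F i) := by
  classical
  induction s using Finset.induction_on with
  | empty =>
    simp only [Finset.sum_empty]
    exact per_zero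
  | insert i s hi ih =>
    simp only [Finset.sum_insert hi]
    rw [per_add (hF i (Finset.mem_insert_self _ _))
      (Sm.sum s fun j hj => hF j (Finset.mem_insert_of_mem hj)),
      ih fun j hj => hF j (Finset.mem_insert_of_mem hj)]

lemma fc_sum {ι : Type*} (s : Finset ι) (f : ι → C(Tor m, ℝ)) (k : Fin m → ℤ) :
    fc (∑ i ∈ s, f i) k = ∑ i ∈ s, fc (f i) k := by
  classical
  induction s using Finset.induction_on with
  | empty => simp [fc_zero]
  | insert i s hi ih => rw [Finset.sum_insert hi, Finset.sum_insert hi, fc_add, ih]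

lemma fc_per_lap {F : E m → ℝ} (hF : Sm F) (k : Fin m → ℤ) :
    fc (per (Lap F)) k = -((4 * Real.pi ^ 2 * sq2 k : ℝ) : ℂ) * fc (per F) k := by
  have h1 : per (Lap F) = ∑ i, per (REF.pd i (REF.pd i F)) :=
    per_sum _ fun i _ => (hF.pd i).pd i
  rw [h1, fc_sum]
  have h2 : ∀ i, fc (per (REF.pd i (REF.pd i F))) k =
      (-(4 * Real.pi ^ 2 * (k i : ℝ) ^ 2 : ℝ) : ℂ) * fc (per F) k := by
    intro i
    rw [fc_per_pd (hF.pd i)]
    unfold dc
    rw [fc_per_pd hF]
    unfold dc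
    push_cast
    linear_combination (4 * (Real.pi : ℂ) ^ 2 * (k i : ℂ) ^ 2 * fc (per F) k) * Complex.I_sq
  rw [Finset.sum_congr rfl fun i _ => h2 i, ← Finset.sum_mul]
  congr 1
  unfold sq2
  push_cast
  rw [Finset.mul_sum, Finset.sum_neg_distrib]

/-- elliptic estimate on the Fourier side -/
lemma nn_le_lap {F : E m → ℝ} (hF : Sm F) (q : ℕ) :
    nn (q + 2) F ≤ ‖fc (per F) 0‖ + m * nn q (Lap F) := by
  rw [hF.nn_eq, hF.lap.nn_eq, ← tsum_mul_left]
  have h1 : Summable fun k : Fin m → ℤ => if k = 0 then ‖fc (per F) 0‖ else 0 :=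
    (hasSum_ite_eq (0 : Fin m → ℤ) ‖fc (per F) 0‖).summable
  have h2 : ∑' k : Fin m → ℤ, (if k = 0 then ‖fc (per F) 0‖ else 0) = ‖fc (per F) 0‖ :=
    (hasSum_ite_eq (0 : Fin m → ℤ) ‖fc (per F) 0‖).tsum_eq
  rw [← h2, ← h1.tsum_add ((hF.lap.summable q).mul_left _)]
  refine (hF.summable (q + 2)).tsum_le_tsum (fun k => ?_)
    (h1.add ((hF.lap.summable q).mul_left _))
  by_cases hk : k = 0
  · subst hk
    rw [if_pos rfl, sz_zero, add_zero, one_pow, mul_one]
    have : (0 : ℝ) ≤ m * (‖fc (per (Lap F)) 0‖ * 1 ^ q) := by positivity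
    linarith
  · rw [if_neg hk, zero_add, fc_per_lap hF, norm_mul, norm_neg, Complex.norm_real, Real.norm_eq_abs]
    have h3 := one_le_sq2 hk
    have h4 := sz_sq_le k
    have h5 : 1 ≤ sz k := by
      obtain ⟨i, hi⟩ := Function.ne_iff.1 hk
      refine le_trans ?_ (abs_le_sz k i)
      rw [← Int.cast_abs]
      exact_mod_cast Int.one_le_abs hi
    have h6 : (1 + sz k) ^ 2 ≤ m * (4 * Real.pi ^ 2 * sq2 k) := by
      have h7 : (1 + sz k) ^ 2 ≤ 4 * sz k ^ 2 := by nlinarith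
      have h8 : 1 ≤ Real.pi ^ 2 := by nlinarith [Real.pi_gt_three]
      have h9 : 0 ≤ (m : ℝ) * sq2 k := by positivity
      nlinarith
    rw [abs_of_nonneg (by positivity)]
    calc ‖fc (per F) k‖ * (1 + sz k) ^ (q + 2)
        = ‖fc (per F) k‖ * (1 + sz k) ^ q * (1 + sz k) ^ 2 := by ring
      _ ≤ ‖fc (per F) k‖ * (1 + sz k) ^ q * (m * (4 * Real.pi ^ 2 * sq2 k)) := by
          have := one_le_sz k
          gcongr
      _ = _ := by ring

lemma summable_inv (m : ℕ) : Summable fun k : Fin m → ℤ => ((1 + sz k) ^ (2 * m))⁻¹ := by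
  have h1 : ∑' k : Fin m → ℤ, ENNReal.ofReal ((1 + sz k) ^ (2 * m))⁻¹ ≠ ⊤ := by
    refine ne_top_of_le_ne_top (lat_ne_top m) (ENNReal.tsum_le_tsum fun k => ?_)
    rw [← ENNReal.ofReal_prod_of_nonneg (fun i _ => by positivity)]
    exact ENNReal.ofReal_le_ofReal (inv_le_prod k)
  have h2 : Summable fun k : Fin m → ℤ => (((1 + sz k) ^ (2 * m))⁻¹).toNNReal := by
    rw [← ENNReal.tsum_coe_ne_top_iff_summable]
    exact h1
  refine (NNReal.summable_coe.2 h2).congr fun k => ?_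
  exact Real.coe_toNNReal _ (by have := one_le_sz k; positivity)

/-- the constant of the lattice sum -/
def lt (m : ℕ) : ℝ := ∑' k : Fin m → ℤ, ((1 + sz k) ^ (2 * m))⁻¹

lemma lt_nonneg (m : ℕ) : 0 ≤ lt m := tsum_nonneg fun k => by have := one_le_sz k; positivity

/-- interpolation -/
lemma nn_interp {F : E m → ℝ} (hF : Sm F) (q p : ℕ) {P R : ℝ} (hP : 0 ≤ P) (hR : 0 < R)
    (h : ∀ k, ‖fc (per F) k‖ ≤ P * (1 + sz k) ^ p) :
    nn q F ≤ R⁻¹ * nn (q + 1) F + P * R ^ (q + p + 2 * m) * lt m := by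
  unfold lt
  rw [hF.nn_eq, hF.nn_eq, ← tsum_mul_left, ← tsum_mul_left,
    ← ((hF.summable (q + 1)).mul_left _).tsum_add ((summable_inv m).mul_left _)]
  refine (hF.summable q).tsum_le_tsum (fun k => ?_)
    (((hF.summable (q + 1)).mul_left _).add ((summable_inv m).mul_left _))
  have h1 := one_le_sz k
  have h0 := norm_nonneg (fc (per F) k)
  rcases le_total R (1 + sz k) with h2 | h2
  · have h3 : 0 ≤ P * R ^ (q + p + 2 * m) * ((1 + sz k) ^ (2 * m))⁻¹ := by positivity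
    have h4 : 1 ≤ R⁻¹ * (1 + sz k) := by
      rw [inv_mul_eq_div, le_div_iff₀ hR, one_mul]
      exact h2
    have h5 : ‖fc (per F) k‖ * (1 + sz k) ^ q ≤ R⁻¹ * (‖fc (per F) k‖ * (1 + sz k) ^ (q + 1)) := by
      calc ‖fc (per F) k‖ * (1 + sz k) ^ q = 1 * (‖fc (per F) k‖ * (1 + sz k) ^ q) := by ring
        _ ≤ (R⁻¹ * (1 + sz k)) * (‖fc (per F) k‖ * (1 + sz k) ^ q) := by gcongr
        _ = _ := by ring
    linarith
  · have h3 : 0 ≤ R⁻¹ * (‖fc (per F) k‖ * (1 + sz k) ^ (q + 1)) := by positivity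
    have h4 : ‖fc (per F) k‖ * (1 + sz k) ^ q ≤
        P * R ^ (q + p + 2 * m) * ((1 + sz k) ^ (2 * m))⁻¹ := by
      calc ‖fc (per F) k‖ * (1 + sz k) ^ q ≤ (P * (1 + sz k) ^ p) * (1 + sz k) ^ q := by
            gcongr
            exact h k
        _ = P * (1 + sz k) ^ (q + p + 2 * m) * ((1 + sz k) ^ (2 * m))⁻¹ := by
            rw [pow_add, pow_add]
            have : (1 + sz k) ^ (2 * m) ≠ 0 := by positivity
            field_simp
        _ ≤ _ := by gcongr
    linarith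

end

end Vale.Agent.P214.LIN
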