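import Vale.Agent.P214.LIN.Intr

/-!
# P214, block LIN (WEYL): the interior estimate
-/

open MeasureTheory
open scoped ENNReal ContDiff Topology

namespace Vale.Agent.P214.LIN

open REF

noncomputable section

variable {m n : ℕ}

/-- the radii -/
def rad (r θ : ℝ) (i : ℕ) : ℝ := r - θ * (1 / 2) ^ i

lemma rad_lt {r θ : ℝ} (hθ : 0 < θ) (i : ℕ) : rad r θ i < rad r θ (i + 1) := by
  unfold rad
  have : (0 : ℝ) < θ * (1 / 2) ^ i := by positivity
  rw [pow_succ]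
  linarith

lemma rad_le {r θ : ℝ} (hθ : 0 < θ) (i : ℕ) : rad r θ i < r := by
  unfold rad
  have : (0 : ℝ) < θ * (1 / 2) ^ i := by positivity
  linarith

lemma rad_pos {r θ : ℝ} (hθ : 0 < θ) (h : θ < r) (i : ℕ) : 0 < rad r θ i := by
  unfold rad
  have : θ * (1 / 2) ^ i ≤ θ * 1 := by
    gcongr
    exact pow_le_one₀ (by norm_num) (by norm_num)
  linarith

lemma rad_width (r θ : ℝ) (j : ℕ) :
    (rad r θ (2 * j + 1) - rad r θ (2 * j))⁻¹ = 2 * θ⁻¹ * 4 ^ j := by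
  have h1 : rad r θ (2 * j + 1) - rad r θ (2 * j) = θ * (1 / 4) ^ j / 2 := by
    unfold rad
    rw [pow_succ, pow_mul]
    norm_num
    ring
  have h2 : ((1 / 4 : ℝ) ^ j)⁻¹ = 4 ^ j := by
    rw [← inv_pow]
    norm_num
  rw [h1, inv_div, div_eq_mul_inv, mul_inv, h2, mul_assoc]

/-- the cut-offs -/
def cu (r θ : ℝ) (j : ℕ) : E m → ℝ := ctf (rad r θ (2 * j)) (rad r θ (2 * j + 1))

lemma sm_cu {r θ : ℝ} (hθ : 0 < θ) (h : θ < r) (hr : r ≤ 3 / 8) (j : ℕ) :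
    Sm (cu (m := m) r θ j) :=
  sm_ctf (rad_pos hθ h _) (rad_lt hθ _) (by linarith [rad_le (r := r) hθ (2 * j + 1)])

/-- **interior estimate**: a solution of the homogeneous system on `‖x‖ < r` is controlled inside by
a weak norm. -/
theorem interior (m n s : ℕ) (hs : 1 ≤ s) : ∃ ε₀ : ℝ, 0 < ε₀ ∧ ε₀ ≤ 1 ∧ ∃ C : ℝ, 0 ≤ C ∧ ∃ κ : ℕ,
    ∀ c : Co m n, c.Good s ε₀ → ∀ g : Fin n → E m → ℝ, (∀ a, ContDiff ℝ ∞ (g a)) →
      ∀ r θ A : ℝ, 0 < θ → θ < r → r ≤ 3 / 8 → 0 ≤ A → (∀ a x, ‖x‖ < r → c.L g a x = 0) →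
      (∀ a, ∀ ψ : E m → ℝ, Sm ψ → (∀ x, r ≤ ‖x‖ → ψ x = 0) →
        |∫ x, g a x * ψ x| ≤ A * nn 3 ψ) →
      tt (s + 2) (fun a y => ctf (r - θ) (r - θ / 2) y * g a y) ≤ C * θ⁻¹ ^ κ * A := by
  obtain ⟨C2, hC2, hctf⟩ := nn_ctf m (s + 2)
  set p : ℕ := s + 2 + 2 * m with hp
  set q : ℕ := s + 1 + 3 + 2 * m with hq
  set κ : ℕ := p * (q + 2) with hκ
  set c3 : ℝ := m * n * cR m n with hc3
  have hc30 : 0 ≤ c3 := by
    have := cR_nonneg m n
    positivity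
  set c4 : ℝ := 4 ^ (κ + 1) * (2 * c3 * C2 + 1) with hc4
  have hc40 : 0 < c4 := by positivity
  have hlt := lt_nonneg m
  set c5 : ℝ := 4 * n * C2 + 2 * c3 * C2 * (2 * n * C2 * c4 ^ q * lt m) with hc5
  have hc50 : 0 ≤ c5 := by positivity
  have hcA : 0 ≤ cA m n := by
    unfold cA
    positivity
  have hpκ : p ≤ κ := by
    rw [hκ]
    nlinarith
  refine ⟨1 / (2 * (cA m n + 1)), by positivity, ?_, 2 * c5 * 8 ^ κ, by positivity, κ, ?_⟩
  · rw [div_le_one (by positivity)]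
    linarith
  intro c hc g hg r θ A hθ hθr hr hA hL hw
  have hε0 : 0 ≤ 1 / (2 * (cA m n + 1)) := by positivity
  have hε1 : 1 / (2 * (cA m n + 1)) ≤ 1 := by
    rw [div_le_one (by positivity)]
    linarith
  have hεA : cA m n * (1 / (2 * (cA m n + 1))) ≤ 1 / 2 := by
    rw [mul_one_div, div_le_div_iff₀ (by positivity) (by positivity)]
    linarith
  have hθ1 : 1 ≤ θ⁻¹ := by
    rw [one_le_inv₀ hθ]
    linarith
  -- bounds of the cut-offs
  have hT : ∀ j : ℕ, 1 ≤ 8 * θ⁻¹ * 4 ^ j := by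
    intro j
    have : (1 : ℝ) ≤ 4 ^ j := one_le_pow₀ (by norm_num)
    nlinarith
  have hK1 : ∀ j, nn (s + 2) (cu (m := m) r θ j) ≤ C2 * (8 * θ⁻¹ * 4 ^ j) ^ p := by
    intro j
    have h1 := hctf (rad r θ (2 * j)) (rad r θ (2 * j + 1)) (rad_pos hθ hθr _) (rad_lt hθ _)
      (by linarith [rad_le (r := r) hθ (2 * j + 1)])
    rw [rad_width] at h1
    refine h1.trans ?_
    have : (0 : ℝ) ≤ θ⁻¹ * 4 ^ j := by positivity
    gcongr
    nlinarith
  have hK2 : ∀ j, nn (s + 2) (cu (m := m) r θ (j + 1)) ≤ C2 * (8 * θ⁻¹ * 4 ^ j) ^ p := by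
    intro j
    have h1 := hctf (rad r θ (2 * (j + 1))) (rad r θ (2 * (j + 1) + 1)) (rad_pos hθ hθr _)
      (rad_lt hθ _) (by linarith [rad_le (r := r) hθ (2 * (j + 1) + 1)])
    rw [rad_width] at h1
    refine h1.trans (le_of_eq ?_)
    have e : 2 * θ⁻¹ * 4 ^ (j + 1) = 8 * θ⁻¹ * 4 ^ j := by
      rw [pow_succ]
      ring
    rw [e]
  have sχ : ∀ j, Sm (cu (m := m) r θ j) := fun j => sm_cu hθ hθr hr j
  have hw3 : ∀ j, nn 3 (cu (m := m) r θ j) ≤ nn (s + 2) (cu (m := m) r θ j) := fun j =>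
    nn_mono (sχ j) (by omega)
  -- the quantities
  set Z : ℕ → ℝ := fun j => tt (s + 2) (fun a y => cu r θ j y * g a y) with hZ
  have hZ0 : ∀ j, 0 ≤ Z j := fun j => tt_nonneg _ _
  -- bounds of the coefficients
  have hfc : ∀ j a k, ‖fc (per (fun y => cu r θ j y * g a y)) k‖ ≤
      (2 * A * nn (s + 2) (cu (m := m) r θ j)) * (1 + sz k) ^ 3 := by
    intro j a k
    refine (fc_le_weak (hg a) hA (hw a) (rad_pos hθ hθr _) (rad_lt hθ _) (rad_le hθ _).le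
      (by linarith [rad_le (r := r) hθ (2 * j + 1)]) k).trans ?_
    have h1 := hw3 j
    have h2 := one_le_sz k
    unfold cu at h1 ⊢
    gcongr
  -- the step
  have hstep : ∀ j, Z j ≤ (1 / 4) ^ (κ + 1) * Z (j + 1) +
      c5 * (8 * θ⁻¹ * 4 ^ j) ^ κ * A := by
    intro j
    obtain ⟨T, hTT⟩ : ∃ T, T = 8 * θ⁻¹ * 4 ^ j := ⟨_, rfl⟩
    have hT1 : 1 ≤ T := by rw [hTT]; exact hT j
    have hT0 : 0 < T := by linarith
    rw [← hTT]
    have k1 := hK1 j
    have k2 := hK2 j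
    rw [← hTT] at k1 k2
    set R : ℝ := c4 * T ^ p with hR
    have hR0 : 0 < R := by positivity
    have h1 := int_step hε0 hε1 hεA hc hg (rad_pos hθ hθr (2 * j)) (rad_lt hθ (2 * j))
      (rad_lt hθ (2 * j + 1)) (rad_lt hθ (2 * j + 1 + 1)) (rad_le (r := r) hθ (2 * j + 1 + 1)).le
      (by linarith [rad_le (r := r) hθ (2 * j + 1 + 1 + 1)]) hL
    have h2 : tt (s + 1) (fun a y => cu r θ (j + 1) y * g a y) ≤
        R⁻¹ * Z (j + 1) + n * ((2 * A * (C2 * T ^ p)) * R ^ q * lt m) := by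
      have h3 : ∀ a : Fin n, nn (s + 1) (fun y => cu r θ (j + 1) y * g a y) ≤
          R⁻¹ * nn (s + 2) (fun y => cu r θ (j + 1) y * g a y) +
            (2 * A * (C2 * T ^ p)) * R ^ q * lt m := by
        intro a
        refine nn_interp ((sχ (j + 1)).mul_right (hg a)) (s + 1) 3 (by positivity) hR0
          (fun k => ?_)
        refine (hfc (j + 1) a k).trans ?_
        have := one_le_sz k
        gcongr
      calc _ ≤ ∑ a : Fin n, (R⁻¹ * nn (s + 2) (fun y => cu r θ (j + 1) y * g a y) +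
            (2 * A * (C2 * T ^ p)) * R ^ q * lt m) := Finset.sum_le_sum fun a _ => h3 a
        _ = _ := by
            rw [Finset.sum_add_distrib, ← Finset.mul_sum]
            simp only [Finset.sum_const, Finset.card_univ, Fintype.card_fin, nsmul_eq_mul]
            rfl
    have h3 : ∑ a, ‖fc (per (fun y => cu r θ j y * g a y)) 0‖ ≤ n * (2 * A * (C2 * T ^ p)) := by
      calc _ ≤ ∑ a : Fin n, 2 * A * (C2 * T ^ p) := by
            refine Finset.sum_le_sum fun a _ => ?_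
            refine (hfc j a 0).trans ?_
            rw [sz_zero, add_zero, one_pow, mul_one]
            gcongr
        _ = _ := by simp
    have h1' : Z j ≤ 2 * (∑ a, ‖fc (per (fun y => cu r θ j y * g a y)) 0‖) +
        2 * (c3 * (nn (s + 2) (cu (m := m) r θ j) *
          tt (s + 1) (fun a y => cu r θ (j + 1) y * g a y))) := by
      have e : 2 * j + 1 + 1 = 2 * (j + 1) := by ring
      rw [e] at h1
      exact h1
    have h4 : nn (s + 2) (cu (m := m) r θ j) *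
          tt (s + 1) (fun a y => cu r θ (j + 1) y * g a y) ≤
        (C2 * T ^ p) * (R⁻¹ * Z (j + 1) + n * ((2 * A * (C2 * T ^ p)) * R ^ q * lt m)) :=
      mul_le_mul k1 h2 (tt_nonneg _ _) (by positivity)
    have h5 : Z j ≤ 2 * (n * (2 * A * (C2 * T ^ p))) + 2 * (c3 * ((C2 * T ^ p) *
        (R⁻¹ * Z (j + 1) + n * ((2 * A * (C2 * T ^ p)) * R ^ q * lt m)))) := by
      refine h1'.trans ?_
      gcongr
    have h6 : 2 * c3 * (C2 * T ^ p) * R⁻¹ ≤ (1 / 4) ^ (κ + 1) := by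
      have e1 : 2 * c3 * (C2 * T ^ p) * R⁻¹ = (1 / 4) ^ (κ + 1) * (2 * c3 * C2 / (2 * c3 * C2 + 1)) := by
        rw [hR, hc4]
        have : T ^ p ≠ 0 := by positivity
        have h2 : 2 * c3 * C2 + 1 ≠ 0 := by positivity
        have h14 : (4 : ℝ) ^ (κ + 1) * (1 / 4) ^ (κ + 1) = 1 := by
          rw [← mul_pow]
          norm_num
        field_simp
        linear_combination (-(c3 * C2)) * h14
      rw [e1]
      have e2 : 2 * c3 * C2 / (2 * c3 * C2 + 1) ≤ 1 := by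
        rw [div_le_one (by positivity)]
        linarith
      have e3 : (0 : ℝ) ≤ (1 / 4) ^ (κ + 1) := by positivity
      exact mul_le_of_le_one_right e3 e2
    have h7 : 2 * (n * (2 * A * (C2 * T ^ p))) + 2 * (c3 * ((C2 * T ^ p) *
        (R⁻¹ * Z (j + 1) + n * ((2 * A * (C2 * T ^ p)) * R ^ q * lt m)))) =
        (2 * c3 * (C2 * T ^ p) * R⁻¹) * Z (j + 1) + (4 * n * C2 * T ^ p +
          2 * c3 * C2 * (2 * n * C2 * c4 ^ q * lt m) * (T ^ p * T ^ p * (T ^ p) ^ q)) * A := by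
      rw [hR]
      ring
    have h8 : T ^ p ≤ T ^ κ := pow_le_pow_right₀ hT1 hpκ
    have h9 : T ^ p * T ^ p * (T ^ p) ^ q = T ^ κ := by
      rw [← pow_add, ← pow_mul, ← pow_add]
      congr 1
      rw [hκ]
      ring
    rw [h7, h9] at h5
    refine h5.trans ?_
    have h10 := hZ0 (j + 1)
    have h11 : (4 * n * C2 * T ^ p + 2 * c3 * C2 * (2 * n * C2 * c4 ^ q * lt m) * T ^ κ) * A ≤
        c5 * T ^ κ * A := by
      have : 4 * n * C2 * T ^ p ≤ 4 * n * C2 * T ^ κ := by gcongr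
      have h12 : c5 * T ^ κ = 4 * n * C2 * T ^ κ +
          2 * c3 * C2 * (2 * n * C2 * c4 ^ q * lt m) * T ^ κ := by
        rw [hc5]
        ring
      rw [h12]
      gcongr
    have h13 : (2 * c3 * (C2 * T ^ p) * R⁻¹) * Z (j + 1) ≤ (1 / 4) ^ (κ + 1) * Z (j + 1) := by
      gcongr
    linarith
  -- a priori bound
  set G : ℝ := tt (s + 2) (fun a y => ctf (3 / 8) (13 / 32) y * g a y) with hG
  have hG0 : 0 ≤ G := tt_nonneg _ _
  have sG : ∀ a, Sm fun y => ctf (m := m) (3 / 8) (13 / 32) y * g a y := fun a =>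
    (sm_ctf (by norm_num) (by norm_num) (by norm_num)).mul_right (hg a)
  have hap : ∀ j, Z j ≤ C2 * (8 * θ⁻¹ * 4 ^ j) ^ p * G := by
    intro j
    have h1 : ∀ a, (fun y => cu r θ j y * g a y) =
        fun y => cu r θ j y * (ctf (m := m) (3 / 8) (13 / 32) y * g a y) := by
      intro a
      funext y
      by_cases hy : ‖y‖ ≤ 3 / 8
      · rw [ctf_one (a := 3 / 8) (b := 13 / 32) (by norm_num) (by norm_num) hy, one_mul]
      · push Not at hy
        have : cu r θ j y = 0 := ctf_zero (rad_pos hθ hθr _) (rad_lt hθ _)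
          (by linarith [rad_le (r := r) hθ (2 * j + 1)])
        rw [this, zero_mul, zero_mul]
    have h2 : Z j = ∑ a, nn (s + 2)
        (fun y => cu r θ j y * (ctf (m := m) (3 / 8) (13 / 32) y * g a y)) := by
      simp only [hZ]
      unfold tt
      exact Finset.sum_congr rfl fun a _ => congrArg (nn (s + 2)) (h1 a)
    rw [h2, hG]
    unfold tt
    rw [Finset.mul_sum]
    refine Finset.sum_le_sum fun a _ => (nn_mul (sχ j) (sG a) _).trans ?_
    have := nn_nonneg (s + 2) (fun y => ctf (m := m) (3 / 8) (13 / 32) y * g a y)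
    have := hK1 j
    gcongr
  -- conclusion
  have hfin := geom_iter (u := fun j => ((1 / 4) ^ (κ + 1)) ^ j * Z j)
    (D := c5 * (8 * θ⁻¹) ^ κ * A) (B := C2 * (8 * θ⁻¹) ^ p * G) (by positivity)
    (fun j => by
      have h1 := hstep j
      have h2 : (0 : ℝ) ≤ ((1 / 4) ^ (κ + 1)) ^ j := by positivity
      have h3 : ((1 / 4 : ℝ) ^ (κ + 1)) ^ j * (8 * θ⁻¹ * 4 ^ j) ^ κ = (8 * θ⁻¹) ^ κ * (1 / 4) ^ j := by
        rw [mul_pow (8 * θ⁻¹), ← pow_mul, ← pow_mul, mul_comm (κ + 1) j, mul_add, mul_one, pow_add]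
        have h4 : (1 / 4 : ℝ) ^ (j * κ) * 4 ^ (j * κ) = 1 := by
          rw [← mul_pow]
          norm_num
        calc (1 / 4 : ℝ) ^ (j * κ) * (1 / 4) ^ j * ((8 * θ⁻¹) ^ κ * 4 ^ (j * κ))
            = ((1 / 4 : ℝ) ^ (j * κ) * 4 ^ (j * κ)) * ((8 * θ⁻¹) ^ κ * (1 / 4) ^ j) := by ring
          _ = _ := by rw [h4, one_mul]
      calc ((1 / 4 : ℝ) ^ (κ + 1)) ^ j * Z j
          ≤ ((1 / 4 : ℝ) ^ (κ + 1)) ^ j * ((1 / 4) ^ (κ + 1) * Z (j + 1) +
            c5 * (8 * θ⁻¹ * 4 ^ j) ^ κ * A) := by gcongr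
        _ = ((1 / 4 : ℝ) ^ (κ + 1)) ^ (j + 1) * Z (j + 1) +
            c5 * (((1 / 4 : ℝ) ^ (κ + 1)) ^ j * (8 * θ⁻¹ * 4 ^ j) ^ κ) * A := by
            rw [pow_succ ((1 / 4 : ℝ) ^ (κ + 1)) j]
            ring
        _ = _ := by
            rw [h3]
            ring)
    (fun j => by
      have h2 : (0 : ℝ) ≤ ((1 / 4) ^ (κ + 1)) ^ j := by positivity
      have h3 : ((1 / 4 : ℝ) ^ (κ + 1)) ^ j * (8 * θ⁻¹ * 4 ^ j) ^ p ≤
          (8 * θ⁻¹) ^ p * (1 / 4) ^ j := by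
        rw [mul_pow (8 * θ⁻¹), ← pow_mul, ← pow_mul, mul_comm (κ + 1) j, mul_add, mul_one, pow_add]
        have h4 : (1 / 4 : ℝ) ^ (j * κ) * 4 ^ (j * p) ≤ 1 := by
          have h5 : (1 / 4 : ℝ) ^ (j * κ) ≤ (1 / 4) ^ (j * p) :=
            pow_le_pow_of_le_one (by norm_num) (by norm_num) (Nat.mul_le_mul_left j hpκ)
          calc (1 / 4 : ℝ) ^ (j * κ) * 4 ^ (j * p) ≤ (1 / 4) ^ (j * p) * 4 ^ (j * p) := by gcongr
            _ = 1 := by
              rw [← mul_pow]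
              norm_num
        have h6 : (0 : ℝ) ≤ (8 * θ⁻¹) ^ p * (1 / 4) ^ j := by positivity
        calc (1 / 4 : ℝ) ^ (j * κ) * (1 / 4) ^ j * ((8 * θ⁻¹) ^ p * 4 ^ (j * p))
            = ((1 / 4 : ℝ) ^ (j * κ) * 4 ^ (j * p)) * ((8 * θ⁻¹) ^ p * (1 / 4) ^ j) := by ring
          _ ≤ 1 * ((8 * θ⁻¹) ^ p * (1 / 4) ^ j) := by gcongr
          _ = _ := one_mul _
      calc ((1 / 4 : ℝ) ^ (κ + 1)) ^ j * Z j
          ≤ ((1 / 4 : ℝ) ^ (κ + 1)) ^ j * (C2 * (8 * θ⁻¹ * 4 ^ j) ^ p * G) := by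
            have := hap j
            gcongr
        _ = C2 * (((1 / 4 : ℝ) ^ (κ + 1)) ^ j * (8 * θ⁻¹ * 4 ^ j) ^ p) * G := by ring
        _ ≤ C2 * ((8 * θ⁻¹) ^ p * (1 / 4) ^ j) * G := by gcongr
        _ = _ := by ring)
  simp only [pow_zero, one_mul] at hfin
  have hZ00 : Z 0 = tt (s + 2) (fun a y => ctf (r - θ) (r - θ / 2) y * g a y) := by
    have e1 : rad r θ (2 * 0) = r - θ := by
      unfold rad
      norm_num
    have e2 : rad r θ (2 * 0 + 1) = r - θ / 2 := by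
      unfold rad
      norm_num
      ring
    simp only [hZ]
    unfold cu
    rw [e1, e2]
  rw [← hZ00]
  refine hfin.trans (le_of_eq ?_)
  rw [mul_pow]
  ring

end

end Vale.Agent.P214.LIN
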