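import Vale.Agent.P214.LIN.Op

/-!
# P214, block LIN (WEYL): interior estimate for linear systems with small coefficients
-/

open MeasureTheory
open scoped ENNReal ContDiff Topology

namespace Vale.Agent.P214.LIN

open REF

noncomputable section

variable {m n : ℕ}

/-- total norm of a vector valued function -/
def tt (q : ℕ) (X : Fin n → E m → ℝ) : ℝ := ∑ a, nn q (X a)

lemma tt_nonneg (q : ℕ) (X : Fin n → E m → ℝ) : 0 ≤ tt q X := Finset.sum_nonneg fun _ _ => nn_nonneg _ _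

lemma nn_le_tt (q : ℕ) (X : Fin n → E m → ℝ) (a : Fin n) : nn q (X a) ≤ tt q X :=
  Finset.single_le_sum (f := fun a => nn q (X a)) (fun _ _ => nn_nonneg _ _) (Finset.mem_univ a)

/-- constant of the absorption -/
def cA (m n : ℕ) : ℝ := m * (m ^ 2 + n * m) * (2 * Real.pi) ^ 2

/-- the lower order terms with small coefficients -/
lemma nn_small {c : Co m n} {s : ℕ} {ε : ℝ} (hε : 0 ≤ ε) (hc : c.Good s ε)
    {X : Fin n → E m → ℝ} (hX : ∀ a, Sm (X a)) (a : Fin n) :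
    nn s (fun x => ∑ i, ∑ j, c.al i j x * REF.pd i (REF.pd j (X a)) x +
        ∑ p : Fin m × Fin n, c.be a p x * REF.pd p.1 (X p.2) x) ≤
      m ^ 2 * (ε * ((2 * Real.pi) ^ 2 * nn (s + 2) (X a))) +
        m * (ε * ((2 * Real.pi) ^ 2 * tt (s + 2) X)) := by
  have hpi := Real.pi_pos
  have h2pi := one_le_twopi
  have p2 : nn s (fun x => ∑ i, ∑ j, c.al i j x * REF.pd i (REF.pd j (X a)) x) ≤
      m ^ 2 * (ε * ((2 * Real.pi) ^ 2 * nn (s + 2) (X a))) := by
    have hsm : ∀ i j, Sm fun x => c.al i j x * REF.pd i (REF.pd j (X a)) x := fun i j =>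
      (hc.sa i j).mul (((hX a).pd j).pd i)
    refine (nn_sum _ (fun i _ => Sm.sum _ fun j _ => hsm i j) s).trans ?_
    have : ∀ i : Fin m, nn s (fun x => ∑ j, c.al i j x * REF.pd i (REF.pd j (X a)) x) ≤
        m * (ε * ((2 * Real.pi) ^ 2 * nn (s + 2) (X a))) := by
      intro i
      refine (nn_sum _ (fun j _ => hsm i j) s).trans ?_
      refine (Finset.sum_le_sum (g := fun _ => ε * ((2 * Real.pi) ^ 2 * nn (s + 2) (X a)))
        fun j _ => ?_).trans (by simp)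
      refine (nn_mul (hc.sa i j) (((hX a).pd j).pd i) s).trans ?_
      exact mul_le_mul (hc.ba i j) (nn_pd_pd (hX a) i j s) (nn_nonneg _ _) hε
    refine (Finset.sum_le_sum fun i _ => this i).trans ?_
    simp only [Finset.sum_const, Finset.card_univ, Fintype.card_fin, nsmul_eq_mul]
    apply le_of_eq
    ring
  have p3 : nn s (fun x => ∑ p : Fin m × Fin n, c.be a p x * REF.pd p.1 (X p.2) x) ≤
      m * (ε * ((2 * Real.pi) ^ 2 * tt (s + 2) X)) := by
    have hsm : ∀ p : Fin m × Fin n, Sm fun x => c.be a p x * REF.pd p.1 (X p.2) x := fun p =>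
      (hc.sb a p).mul ((hX p.2).pd p.1)
    refine (nn_sum _ (fun p _ => hsm p) s).trans ?_
    rw [Fintype.sum_prod_type]
    refine (Finset.sum_le_sum (g := fun _ => ε * ((2 * Real.pi) ^ 2 * tt (s + 2) X))
      fun i _ => ?_).trans (by simp)
    unfold tt
    rw [Finset.mul_sum, Finset.mul_sum]
    refine Finset.sum_le_sum fun b _ => ?_
    refine (nn_mul (hc.sb a (i, b)) ((hX b).pd i) s).trans ?_
    refine mul_le_mul (hc.bb a (i, b)) ?_ (nn_nonneg _ _) hε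
    calc nn s (REF.pd i (X b)) ≤ 2 * Real.pi * nn (s + 1) (X b) := nn_pd (hX b) i s
      _ ≤ (2 * Real.pi) ^ 2 * nn (s + 2) (X b) := by
          have h6 : 2 * Real.pi ≤ (2 * Real.pi) ^ 2 := by nlinarith
          have h7 := nn_mono (hX b) (show s + 1 ≤ s + 2 by omega)
          have h8 := nn_nonneg (s + 1) (X b)
          exact mul_le_mul h6 h7 h8 (by positivity)
  have q2 : Sm fun x => ∑ i, ∑ j, c.al i j x * REF.pd i (REF.pd j (X a)) x :=
    Sm.sum _ fun i _ => Sm.sum _ fun j _ => (hc.sa i j).mul (((hX a).pd j).pd i)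
  have q3 : Sm fun x => ∑ p : Fin m × Fin n, c.be a p x * REF.pd p.1 (X p.2) x :=
    Sm.sum _ fun p _ => (hc.sb a p).mul ((hX p.2).pd p.1)
  exact (nn_add q2 q3 s).trans (add_le_add p2 p3)

/-- **one step** -/
lemma int_step {c : Co m n} {s : ℕ} {ε : ℝ} (hε0 : 0 ≤ ε) (hε1 : ε ≤ 1) (hεA : cA m n * ε ≤ 1 / 2)
    (hc : c.Good s ε) {g : Fin n → E m → ℝ} (hg : ∀ a, ContDiff ℝ ∞ (g a))
    {a₀ b₀ a₁ b₁ r : ℝ} (h0 : 0 < a₀) (h1 : a₀ < b₀) (h2 : b₀ < a₁) (h3 : a₁ < b₁) (h4 : a₁ ≤ r)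
    (h5 : b₁ < 7 / 16) (hL : ∀ a x, ‖x‖ < r → c.L g a x = 0) :
    tt (s + 2) (fun a y => ctf a₀ b₀ y * g a y) ≤
      2 * (∑ a, ‖fc (per (fun y => ctf a₀ b₀ y * g a y)) 0‖) +
      2 * (m * n * cR m n * (nn (s + 2) (ctf (m := m) a₀ b₀) *
        tt (s + 1) (fun a y => ctf a₁ b₁ y * g a y))) := by
  have sχ : Sm (ctf (m := m) a₀ b₀) := sm_ctf h0 h1 (by linarith)
  have sχ' : Sm (ctf (m := m) a₁ b₁) := sm_ctf (by linarith) h3 h5
  have sX : ∀ a, Sm fun y => ctf a₀ b₀ y * g a y := fun a => sχ.mul_right (hg a)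
  have sX' : ∀ a, Sm fun y => ctf a₁ b₁ y * g a y := fun a => sχ'.mul_right (hg a)
  obtain ⟨Z, hZ⟩ : ∃ Z, Z = tt (s + 2) (fun a y => ctf a₀ b₀ y * g a y) := ⟨_, rfl⟩
  obtain ⟨Z', hZ'⟩ : ∃ Z', Z' = tt (s + 1) (fun a y => ctf a₁ b₁ y * g a y) := ⟨_, rfl⟩
  obtain ⟨K, hK⟩ : ∃ K, K = nn (s + 2) (ctf (m := m) a₀ b₀) := ⟨_, rfl⟩
  rw [← hZ, ← hZ', ← hK]
  have hZ0 : 0 ≤ Z := by rw [hZ]; exact tt_nonneg _ _
  have key : ∀ a, nn (s + 2) (fun y => ctf a₀ b₀ y * g a y) ≤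
      ‖fc (per (fun y => ctf a₀ b₀ y * g a y)) 0‖ + m * (cR m n * (K * Z') +
        (m ^ 2 * (ε * ((2 * Real.pi) ^ 2 * nn (s + 2) (fun y => ctf a₀ b₀ y * g a y))) +
        m * (ε * ((2 * Real.pi) ^ 2 * Z)))) := by
    intro a
    refine (nn_le_lap (sX a) s).trans ?_
    have e1 : Lap (fun y => ctf a₀ b₀ y * g a y) = fun x =>
        Rem c (ctf a₀ b₀) (fun b y => ctf a₁ b₁ y * g b y) a x -
        (∑ i, ∑ j, c.al i j x * REF.pd i (REF.pd j (fun y => ctf a₀ b₀ y * g a y)) x +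
          ∑ p : Fin m × Fin n, c.be a p x * REF.pd p.1 (fun y => ctf a₀ b₀ y * g p.2 y) x) := by
      funext x
      exact lap_cut c hg h0 h1 h2 h3 h4 hL a x
    have s1 := sm_rem s hc sχ sX' a
    have s2 : Sm fun x => ∑ i, ∑ j, c.al i j x *
        REF.pd i (REF.pd j (fun y => ctf a₀ b₀ y * g a y)) x +
          ∑ p : Fin m × Fin n, c.be a p x * REF.pd p.1 (fun y => ctf a₀ b₀ y * g p.2 y) x :=
      Sm.add (Sm.sum _ fun i _ => Sm.sum _ fun j _ => (hc.sa i j).mul (((sX a).pd j).pd i))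
        (Sm.sum _ fun p _ => (hc.sb a p).mul ((sX p.2).pd p.1))
    have e2 : nn s (Lap (fun y => ctf a₀ b₀ y * g a y)) ≤ cR m n * (K * Z') +
        (m ^ 2 * (ε * ((2 * Real.pi) ^ 2 * nn (s + 2) (fun y => ctf a₀ b₀ y * g a y))) +
        m * (ε * ((2 * Real.pi) ^ 2 * Z))) := by
      rw [e1]
      refine (nn_sub s1 s2 s).trans (add_le_add ?_ ?_)
      · refine nn_rem hε1 hc sχ sX' (le_of_eq hK.symm) (fun b => ?_) a
        rw [hZ']
        exact nn_le_tt (s + 1) (fun a y => ctf a₁ b₁ y * g a y) b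
      · rw [hZ]
        exact nn_small hε0 hc sX a
    gcongr
  have hsum : Z ≤ (∑ a, ‖fc (per (fun y => ctf a₀ b₀ y * g a y)) 0‖) +
      m * (n * (cR m n * (K * Z')) + (m ^ 2 * (ε * ((2 * Real.pi) ^ 2 * Z)) +
        n * (m * (ε * ((2 * Real.pi) ^ 2 * Z))))) := by
    calc Z ≤ ∑ a : Fin n, (‖fc (per (fun y => ctf a₀ b₀ y * g a y)) 0‖ + m * (cR m n * (K * Z') +
        (m ^ 2 * (ε * ((2 * Real.pi) ^ 2 * nn (s + 2) (fun y => ctf a₀ b₀ y * g a y))) +
        m * (ε * ((2 * Real.pi) ^ 2 * Z))))) := by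
          conv_lhs => rw [hZ]
          exact Finset.sum_le_sum fun a _ => key a
      _ = _ := by
          conv_rhs => rw [hZ]
          unfold tt
          simp only [Finset.sum_add_distrib, ← Finset.mul_sum, Finset.sum_const, Finset.card_univ,
            Fintype.card_fin, nsmul_eq_mul]
          rw [hZ]
          unfold tt
          ring
  have hA : m * (m ^ 2 * (ε * ((2 * Real.pi) ^ 2 * Z)) + n * (m * (ε * ((2 * Real.pi) ^ 2 * Z)))) ≤
      1 / 2 * Z := by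
    have : m * (m ^ 2 * (ε * ((2 * Real.pi) ^ 2 * Z)) + n * (m * (ε * ((2 * Real.pi) ^ 2 * Z)))) =
        (cA m n * ε) * Z := by
      unfold cA
      ring
    rw [this]
    gcongr
  nlinarith

/-! ### the weak bound gives bounds of the coefficients -/

lemma fc_le_weak {g : E m → ℝ} (hg : ContDiff ℝ ∞ g) {r A : ℝ} (hA : 0 ≤ A)
    (hw : ∀ ψ : E m → ℝ, Sm ψ → (∀ x, r ≤ ‖x‖ → ψ x = 0) → |∫ x, g x * ψ x| ≤ A * nn 3 ψ)
    {a b : ℝ} (h0 : 0 < a) (h1 : a < b) (h2 : b ≤ r) (h3 : b < 7 / 16) (k : Fin m → ℤ) :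
    ‖fc (per (fun y => ctf a b y * g y)) k‖ ≤
      (2 * A * nn 3 (ctf (m := m) a b)) * (1 + sz k) ^ 3 := by
  have sχ : Sm (ctf (m := m) a b) := sm_ctf h0 h1 h3
  have key : ∀ c : ℂ, ‖c‖ = 1 → |∫ x, ctf a b x * g x * os c (-k) x| ≤
      A * (nn 3 (ctf (m := m) a b) * (1 + sz k) ^ 3) := by
    intro c hc
    have h4 := hw (fun x => ctf a b x * os c (-k) x) (sχ.mul_right (contDiff_os _ _))
      (fun x hx => by simp only [ctf_zero h0 h1 (h2.trans hx), zero_mul])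
    have h5 : ∫ x, ctf a b x * g x * os c (-k) x = ∫ x, g x * (ctf a b x * os c (-k) x) := by
      congr 1
      funext x
      ring
    rw [h5]
    refine h4.trans ?_
    have h6 := nn_mul_os sχ c (-k) 3
    rw [hc, one_mul, sz_neg] at h6
    gcongr
  refine (norm_fc_le_int (sχ.mul_right hg) k).trans ?_
  have h7 := key 1 (by simp)
  have h8 := key (-Complex.I) (by simp)
  linarith

/-! ### the iteration -/

lemma geom_iter {u : ℕ → ℝ} {D B : ℝ} (hD : 0 ≤ D) (h1 : ∀ j, u j ≤ u (j + 1) + D * (1 / 4) ^ j)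
    (h2 : ∀ j, u j ≤ B * (1 / 4) ^ j) : u 0 ≤ 2 * D := by
  have h3 : ∀ j, u 0 ≤ u j + 2 * D * (1 - (1 / 4) ^ j) := by
    intro j
    induction j with
    | zero => simp
    | succ j ih =>
      have h4 := h1 j
      have h5 : (0 : ℝ) ≤ D * (1 / 4) ^ j := by positivity
      rw [pow_succ]
      nlinarith
  have h4 : ∀ j, u 0 ≤ B * (1 / 4) ^ j + 2 * D := by
    intro j
    have h5 : (0 : ℝ) ≤ 2 * D * (1 / 4) ^ j := by positivity
    have h6 := h3 j
    have h7 := h2 j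
    nlinarith
  have h5 : Filter.Tendsto (fun j : ℕ => B * (1 / 4) ^ j + 2 * D) Filter.atTop
      (𝓝 (B * 0 + 2 * D)) :=
    ((tendsto_pow_atTop_nhds_zero_of_lt_one (by norm_num) (by norm_num)).const_mul B).add_const _
  rw [mul_zero, zero_add] at h5
  exact ge_of_tendsto' h5 h4

end

end Vale.Agent.P214.LIN
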