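import Vale.Agent.P214.LIN.Weyl
import Vale.Agent.P214.LIN.Main

/-!
# P214, block LINW: the linearisation step
-/

namespace Vale.Agent.P214.LIN

/-- **[LINW]** -/
theorem linwStmt (E : Type*) [MeasurableSpace E] {m n : ℕ} (hm : 0 < m) (hn : 0 < n) :
    WIN.LinwStmt E m n :=
  linwStmt_of_weyl E hm hn (weyl hm hn (by omega))

end Vale.Agent.P214.LIN
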