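import Vale.Agent.P214.LIN.Proj

/-!
# P214, block LIN (WEYL): linear systems with small coefficients, cut-offs, one interior step
-/

open MeasureTheory
open scoped ENNReal ContDiff Topology

namespace Vale.Agent.P214.LIN

open REF

noncomputable section

variable {m n : ℕ}

/-- coefficients of the operator -/
structure Co (m n : ℕ) where
  /-- second order coefficients -/
  al : Fin m → Fin m → E m → ℝ
  /-- first order coefficients -/
  be : Fin n → Fin m × Fin n → E m → ℝ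

/-- smooth coefficients of small size -/
structure Co.Good (c : Co m n) (s : ℕ) (ε : ℝ) : Prop where
  sa : ∀ i j, Sm (c.al i j)
  sb : ∀ a p, Sm (c.be a p)
  ba : ∀ i j, nn s (c.al i j) ≤ ε
  bb : ∀ a p, nn s (c.be a p) ≤ ε

/-- the operator -/
def Co.L (c : Co m n) (f : Fin n → E m → ℝ) (a : Fin n) (x : E m) : ℝ :=
  Lap (f a) x + (∑ i, ∑ j, c.al i j x * REF.pd i (REF.pd j (f a)) x +
    ∑ p : Fin m × Fin n, c.be a p x * REF.pd p.1 (f p.2) x)

/-- the formal adjoint -/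
def Co.Lt (c : Co m n) (φ : Fin n → E m → ℝ) (b : Fin n) (x : E m) : ℝ :=
  Lap (φ b) x + (∑ i, ∑ j, REF.pd i (REF.pd j fun y => c.al i j y * φ b y) x -
    ∑ a, ∑ k, REF.pd k (fun y => c.be a (k, b) y * φ a y) x)

/-! ### product rules -/

lemma pd_mul {F G : E m → ℝ} (hF : ContDiff ℝ ∞ F) (hG : ContDiff ℝ ∞ G) (i : Fin m) :
    REF.pd i (fun x => F x * G x) = fun x => REF.pd i F x * G x + F x * REF.pd i G x := by
  funext x
  unfold REF.pd
  have h1 : DifferentiableAt ℝ F x := (hF.differentiable (by simp)).differentiableAt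
  have h2 : DifferentiableAt ℝ G x := (hG.differentiable (by simp)).differentiableAt
  have h3 : fderiv ℝ (fun x => F x * G x) x = F x • fderiv ℝ G x + G x • fderiv ℝ F x :=
    fderiv_fun_mul h1 h2
  rw [h3]
  change F x * fderiv ℝ G x (bs i) + G x * fderiv ℝ F x (bs i) = _
  ring

lemma pd_pd_mul {F G : E m → ℝ} (hF : ContDiff ℝ ∞ F) (hG : ContDiff ℝ ∞ G) (i j : Fin m)
    (x : E m) : REF.pd i (REF.pd j (fun x => F x * G x)) x =
      (REF.pd i (REF.pd j F) x * G x + REF.pd j F x * REF.pd i G x + REF.pd i F x * REF.pd j G x) +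
        F x * REF.pd i (REF.pd j G) x := by
  rw [pd_mul hF hG, pd_add ((contDiff_pd hF j).mul hG) (hF.mul (contDiff_pd hG j))]
  simp only
  rw [pd_mul (contDiff_pd hF j) hG, pd_mul hF (contDiff_pd hG j)]
  ring

/-! ### the equation of a cut-off solution -/

/-- the first order remainder -/
def Rem (c : Co m n) (χ : E m → ℝ) (Xp : Fin n → E m → ℝ) (a : Fin n) (x : E m) : ℝ :=
  ∑ i, (REF.pd i (REF.pd i χ) x * Xp a x + REF.pd i χ x * REF.pd i (Xp a) x +
    REF.pd i χ x * REF.pd i (Xp a) x) +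
  (∑ i, ∑ j, c.al i j x * (REF.pd i (REF.pd j χ) x * Xp a x + REF.pd j χ x * REF.pd i (Xp a) x +
    REF.pd i χ x * REF.pd j (Xp a) x) +
  ∑ p : Fin m × Fin n, c.be a p x * (REF.pd p.1 χ x * Xp p.2 x))

lemma lap_cut (c : Co m n) {g : Fin n → E m → ℝ} (hg : ∀ a, ContDiff ℝ ∞ (g a))
    {a₀ b₀ a₁ b₁ r : ℝ} (h0 : 0 < a₀) (h1 : a₀ < b₀) (h2 : b₀ < a₁) (h3 : a₁ < b₁) (h4 : a₁ ≤ r)
    (hL : ∀ a x, ‖x‖ < r → c.L g a x = 0) (a : Fin n) (x : E m) :
    Lap (fun y => ctf a₀ b₀ y * g a y) x =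
      Rem c (ctf a₀ b₀) (fun b y => ctf a₁ b₁ y * g b y) a x -
      (∑ i, ∑ j, c.al i j x * REF.pd i (REF.pd j (fun y => ctf a₀ b₀ y * g a y)) x +
        ∑ p : Fin m × Fin n, c.be a p x * REF.pd p.1 (fun y => ctf a₀ b₀ y * g p.2 y) x) := by
  have hχ : ContDiff ℝ ∞ (ctf (m := m) a₀ b₀) := contDiff_ctf a₀ b₀
  by_cases hx : ‖x‖ < a₁
  · -- here the outer cut-off is one
    have e0 : ∀ b, (fun y => ctf a₁ b₁ y * g b y) =ᶠ[𝓝 x] g b := by
      intro b
      filter_upwards [(isOpen_lt continuous_norm continuous_const).mem_nhds hx] with y hy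
      rw [ctf_one (by linarith) h3 (le_of_lt hy), one_mul]
    have e1 : ∀ b, ctf a₁ b₁ x * g b x = g b x := fun b => (e0 b).eq_of_nhds
    have e2 : ∀ b i, REF.pd i (fun y => ctf a₁ b₁ y * g b y) x = REF.pd i (g b) x := fun b i =>
      (pd_congr (e0 b) i).eq_of_nhds
    have hL' := hL a x (hx.trans_le h4)
    unfold Co.L at hL'
    have k1 : Lap (fun y => ctf a₀ b₀ y * g a y) x =
        ∑ i, (REF.pd i (REF.pd i (ctf a₀ b₀)) x * g a x + REF.pd i (ctf a₀ b₀) x * REF.pd i (g a) x +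
          REF.pd i (ctf a₀ b₀) x * REF.pd i (g a) x) + ctf a₀ b₀ x * Lap (g a) x := by
      unfold Lap
      rw [Finset.mul_sum, ← Finset.sum_add_distrib]
      exact Finset.sum_congr rfl fun i _ => pd_pd_mul hχ (hg a) i i x
    have k2 : ∑ i, ∑ j, c.al i j x * REF.pd i (REF.pd j (fun y => ctf a₀ b₀ y * g a y)) x =
        ∑ i, ∑ j, c.al i j x * (REF.pd i (REF.pd j (ctf a₀ b₀)) x * g a x +
          REF.pd j (ctf a₀ b₀) x * REF.pd i (g a) x + REF.pd i (ctf a₀ b₀) x * REF.pd j (g a) x) +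
        ctf a₀ b₀ x * ∑ i, ∑ j, c.al i j x * REF.pd i (REF.pd j (g a)) x := by
      simp only [Finset.mul_sum]
      simp only [← Finset.sum_add_distrib]
      refine Finset.sum_congr rfl fun i _ => Finset.sum_congr rfl fun j _ => ?_
      rw [pd_pd_mul hχ (hg a)]
      ring
    have k3 : ∑ p : Fin m × Fin n, c.be a p x * REF.pd p.1 (fun y => ctf a₀ b₀ y * g p.2 y) x =
        ∑ p : Fin m × Fin n, c.be a p x * (REF.pd p.1 (ctf a₀ b₀) x * g p.2 x) +
        ctf a₀ b₀ x * ∑ p : Fin m × Fin n, c.be a p x * REF.pd p.1 (g p.2) x := by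
      simp only [Finset.mul_sum]
      simp only [← Finset.sum_add_distrib]
      refine Finset.sum_congr rfl fun p _ => ?_
      rw [pd_mul hχ (hg p.2)]
      ring
    unfold Rem
    simp only [e1, e2]
    rw [k1, k2, k3]
    linear_combination (ctf a₀ b₀ x) * hL'
  · -- here everything vanishes
    push Not at hx
    have hx' : b₀ < ‖x‖ := h2.trans_le hx
    have e0 : ctf a₀ b₀ =ᶠ[𝓝 x] fun _ => 0 := by
      filter_upwards [(isOpen_lt continuous_const continuous_norm).mem_nhds hx'] with y hy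
      exact ctf_zero h0 h1 (le_of_lt hy)
    have e1 : ∀ b, (fun y => ctf a₀ b₀ y * g b y) =ᶠ[𝓝 x] fun _ => 0 := by
      intro b
      filter_upwards [e0] with y hy
      rw [hy, zero_mul]
    have f1 : ∀ i, REF.pd i (ctf a₀ b₀) x = 0 := fun i => by
      rw [(pd_congr e0 i).eq_of_nhds, pd_zero]
    have f2 : ∀ i j, REF.pd i (REF.pd j (ctf a₀ b₀)) x = 0 := fun i j => by
      have := pd_congr e0 j
      rw [pd_zero] at this
      rw [(pd_congr this i).eq_of_nhds, pd_zero]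
    have f3 : ∀ b i, REF.pd i (fun y => ctf a₀ b₀ y * g b y) x = 0 := fun b i => by
      rw [(pd_congr (e1 b) i).eq_of_nhds, pd_zero]
    have f4 : ∀ b i j, REF.pd i (REF.pd j (fun y => ctf a₀ b₀ y * g b y)) x = 0 := fun b i j => by
      have := pd_congr (e1 b) j
      rw [pd_zero] at this
      rw [(pd_congr this i).eq_of_nhds, pd_zero]
    unfold Rem Lap
    simp only [f1, f2, f3, f4, mul_zero, zero_mul, add_zero, Finset.sum_const_zero, sub_zero]

/-! ### estimate of the remainder -/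

/-- constant of the remainder -/
def cR (m n : ℕ) : ℝ := (3 * m + 3 * m ^ 2 + m * n) * (2 * Real.pi) ^ 2

lemma cR_nonneg (m n : ℕ) : 0 ≤ cR m n := by
  unfold cR
  positivity

lemma one_le_twopi : (1 : ℝ) ≤ 2 * Real.pi := by linarith [Real.pi_gt_three]

lemma sm_rem {c : Co m n} (s : ℕ) {ε : ℝ} (hc : c.Good s ε) {χ : E m → ℝ} (hχ : Sm χ)
    {Xp : Fin n → E m → ℝ} (hX : ∀ a, Sm (Xp a)) (a : Fin n) : Sm (Rem c χ Xp a) := by
  unfold Rem
  refine Sm.add (Sm.sum _ fun i _ => ?_) (Sm.add (Sm.sum _ fun i _ => Sm.sum _ fun j _ => ?_)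
    (Sm.sum _ fun p _ => ?_))
  · exact ((((hχ.pd i).pd i).mul (hX a)).add ((hχ.pd i).mul ((hX a).pd i))).add
      ((hχ.pd i).mul ((hX a).pd i))
  · exact (hc.sa i j).mul (((((hχ.pd j).pd i).mul (hX a)).add ((hχ.pd j).mul ((hX a).pd i))).add
      ((hχ.pd i).mul ((hX a).pd j)))
  · exact (hc.sb a p).mul ((hχ.pd p.1).mul (hX p.2))

section Terms

variable {s : ℕ} {χ X X' : E m → ℝ} {K Y : ℝ}

lemma rem_t1 (hχ : Sm χ) (hX : Sm X) (hK : nn (s + 2) χ ≤ K) (hY : nn (s + 1) X ≤ Y)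
    (i j : Fin m) : nn s (fun x => REF.pd i (REF.pd j χ) x * X x) ≤
      (2 * Real.pi) ^ 2 * (K * Y) := by
  have hK0 : 0 ≤ K := (nn_nonneg _ _).trans hK
  calc _ ≤ nn s (REF.pd i (REF.pd j χ)) * nn s X := nn_mul ((hχ.pd j).pd i) hX s
    _ ≤ ((2 * Real.pi) ^ 2 * K) * Y := by
        refine mul_le_mul ((nn_pd_pd hχ i j s).trans (by gcongr)) ?_ (nn_nonneg _ _)
          (by positivity)
        exact (nn_mono hX (Nat.le_succ s)).trans hY
    _ = _ := by ring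

lemma rem_t2 (hχ : Sm χ) (hX : Sm X) (hK : nn (s + 2) χ ≤ K) (hY : nn (s + 1) X ≤ Y)
    (i j : Fin m) : nn s (fun x => REF.pd i χ x * REF.pd j X x) ≤
      (2 * Real.pi) ^ 2 * (K * Y) := by
  have hK0 : 0 ≤ K := (nn_nonneg _ _).trans hK
  have hpi := Real.pi_pos
  have h1 : nn (s + 1) χ ≤ K := (nn_mono hχ (show s + 1 ≤ s + 2 by omega)).trans hK
  calc _ ≤ nn s (REF.pd i χ) * nn s (REF.pd j X) := nn_mul (hχ.pd i) (hX.pd j) s
    _ ≤ (2 * Real.pi * K) * (2 * Real.pi * Y) := by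
        refine mul_le_mul ((nn_pd hχ i s).trans (by gcongr)) ((nn_pd hX j s).trans (by gcongr))
          (nn_nonneg _ _) (by positivity)
    _ = _ := by ring

lemma rem_t3 (hχ : Sm χ) (hX : Sm X) (hK : nn (s + 2) χ ≤ K) (hY : nn (s + 1) X ≤ Y)
    (i : Fin m) : nn s (fun x => REF.pd i χ x * X x) ≤ (2 * Real.pi) ^ 2 * (K * Y) := by
  have hK0 : 0 ≤ K := (nn_nonneg _ _).trans hK
  have hY0 : 0 ≤ Y := (nn_nonneg _ _).trans hY
  have hpi := Real.pi_pos
  have h2pi := one_le_twopi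
  have h1 : nn (s + 1) χ ≤ K := (nn_mono hχ (show s + 1 ≤ s + 2 by omega)).trans hK
  calc _ ≤ nn s (REF.pd i χ) * nn s X := nn_mul (hχ.pd i) hX s
    _ ≤ (2 * Real.pi * K) * Y := by
        refine mul_le_mul ((nn_pd hχ i s).trans (by gcongr))
          ((nn_mono hX (Nat.le_succ s)).trans hY) (nn_nonneg _ _) (by positivity)
    _ = 2 * Real.pi * (K * Y) := by ring
    _ ≤ (2 * Real.pi) ^ 2 * (K * Y) := by
        have h5 : 0 ≤ K * Y := mul_nonneg hK0 hY0
        have h6 : 2 * Real.pi ≤ (2 * Real.pi) ^ 2 := by nlinarith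
        gcongr

lemma sm_t4 (hχ : Sm χ) (hX : Sm X) (i j : Fin m) : Sm (fun x => REF.pd i (REF.pd j χ) x * X x +
      REF.pd j χ x * REF.pd i X x + REF.pd i χ x * REF.pd j X x) :=
  ((((hχ.pd j).pd i).mul hX).add ((hχ.pd j).mul (hX.pd i))).add ((hχ.pd i).mul (hX.pd j))

lemma rem_t4 (hχ : Sm χ) (hX : Sm X) (hK : nn (s + 2) χ ≤ K) (hY : nn (s + 1) X ≤ Y)
    (i j : Fin m) : nn s (fun x => REF.pd i (REF.pd j χ) x * X x +
      REF.pd j χ x * REF.pd i X x + REF.pd i χ x * REF.pd j X x) ≤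
      3 * ((2 * Real.pi) ^ 2 * (K * Y)) := by
  have u1 := ((hχ.pd j).pd i).mul hX
  have u2 := (hχ.pd j).mul (hX.pd i)
  have u3 := (hχ.pd i).mul (hX.pd j)
  have v1 := nn_add (u1.add u2) u3 s
  have v2 := nn_add u1 u2 s
  have w1 := rem_t1 hχ hX hK hY i j
  have w2 := rem_t2 hχ hX hK hY j i
  have w3 := rem_t2 hχ hX hK hY i j
  linarith

end Terms

lemma nn_rem {c : Co m n} {s : ℕ} {ε K Y : ℝ} (hε : ε ≤ 1) (hc : c.Good s ε) {χ : E m → ℝ}
    (hχ : Sm χ) {Xp : Fin n → E m → ℝ} (hX : ∀ a, Sm (Xp a)) (hK : nn (s + 2) χ ≤ K)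
    (hY : ∀ b, nn (s + 1) (Xp b) ≤ Y) (a : Fin n) :
    nn s (Rem c χ Xp a) ≤ cR m n * (K * Y) := by
  have hK0 : 0 ≤ K := (nn_nonneg _ _).trans hK
  have hY0 : 0 ≤ Y := (nn_nonneg _ _).trans (hY a)
  have hW0 : 0 ≤ (2 * Real.pi) ^ 2 * (K * Y) := by positivity
  obtain ⟨W, hW⟩ : ∃ W, W = (2 * Real.pi) ^ 2 * (K * Y) := ⟨_, rfl⟩
  rw [← hW] at hW0
  have p1 : nn s (fun x => ∑ i, (REF.pd i (REF.pd i χ) x * Xp a x +
      REF.pd i χ x * REF.pd i (Xp a) x + REF.pd i χ x * REF.pd i (Xp a) x)) ≤ m * (3 * W) := by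
    refine (nn_sum _ (fun i _ => sm_t4 hχ (hX a) i i) s).trans ?_
    refine (Finset.sum_le_sum (g := fun _ => 3 * W) fun i _ => ?_).trans (by simp)
    rw [hW]
    exact rem_t4 hχ (hX a) hK (hY a) i i
  have p2 : nn s (fun x => ∑ i, ∑ j, c.al i j x * (REF.pd i (REF.pd j χ) x * Xp a x +
      REF.pd j χ x * REF.pd i (Xp a) x + REF.pd i χ x * REF.pd j (Xp a) x)) ≤ m ^ 2 * (3 * W) := by
    refine (nn_sum _ (fun i _ => Sm.sum _ fun j _ => (hc.sa i j).mul (sm_t4 hχ (hX a) i j)) s).trans ?_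
    have : ∀ i : Fin m, nn s (fun x => ∑ j, c.al i j x * (REF.pd i (REF.pd j χ) x * Xp a x +
        REF.pd j χ x * REF.pd i (Xp a) x + REF.pd i χ x * REF.pd j (Xp a) x)) ≤ m * (3 * W) := by
      intro i
      refine (nn_sum _ (fun j _ => (hc.sa i j).mul (sm_t4 hχ (hX a) i j)) s).trans ?_
      refine (Finset.sum_le_sum (g := fun _ => 3 * W) fun j _ => ?_).trans (by simp)
      refine (nn_mul (hc.sa i j) (sm_t4 hχ (hX a) i j) s).trans ?_
      have h4 := rem_t4 hχ (hX a) hK (hY a) i j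
      rw [← hW] at h4
      calc _ ≤ 1 * (3 * W) :=
            mul_le_mul ((hc.ba i j).trans hε) h4 (nn_nonneg _ _) zero_le_one
        _ = _ := one_mul _
    refine (Finset.sum_le_sum fun i _ => this i).trans ?_
    simp only [Finset.sum_const, Finset.card_univ, Fintype.card_fin, nsmul_eq_mul]
    apply le_of_eq
    ring
  have p3 : nn s (fun x => ∑ p : Fin m × Fin n, c.be a p x * (REF.pd p.1 χ x * Xp p.2 x)) ≤
      m * n * W := by
    refine (nn_sum _ (fun p _ => (hc.sb a p).mul ((hχ.pd p.1).mul (hX p.2))) s).trans ?_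
    refine (Finset.sum_le_sum (g := fun _ => W) fun p _ => ?_).trans (by simp)
    refine (nn_mul (hc.sb a p) ((hχ.pd p.1).mul (hX p.2)) s).trans ?_
    have h4 := rem_t3 hχ (hX p.2) hK (hY p.2) p.1
    rw [← hW] at h4
    calc _ ≤ 1 * W := mul_le_mul ((hc.bb a p).trans hε) h4 (nn_nonneg _ _) zero_le_one
      _ = _ := one_mul _
  have q1 : Sm fun x => ∑ i, (REF.pd i (REF.pd i χ) x * Xp a x +
      REF.pd i χ x * REF.pd i (Xp a) x + REF.pd i χ x * REF.pd i (Xp a) x) :=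
    Sm.sum _ fun i _ => sm_t4 hχ (hX a) i i
  have q2 : Sm fun x => ∑ i, ∑ j, c.al i j x * (REF.pd i (REF.pd j χ) x * Xp a x +
      REF.pd j χ x * REF.pd i (Xp a) x + REF.pd i χ x * REF.pd j (Xp a) x) :=
    Sm.sum _ fun i _ => Sm.sum _ fun j _ => (hc.sa i j).mul (sm_t4 hχ (hX a) i j)
  have q3 : Sm fun x => ∑ p : Fin m × Fin n, c.be a p x * (REF.pd p.1 χ x * Xp p.2 x) :=
    Sm.sum _ fun p _ => (hc.sb a p).mul ((hχ.pd p.1).mul (hX p.2))
  have r1 := nn_add q1 (q2.add q3) s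
  have r2 := nn_add q2 q3 s
  have r3 : cR m n * (K * Y) = m * (3 * W) + (m ^ 2 * (3 * W) + m * n * W) := by
    rw [hW]
    unfold cR
    ring
  rw [r3]
  unfold Rem
  linarith

end

end Vale.Agent.P214.LIN
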