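import Vale.Agent.P214.LIN.Calc

/-!
# P214, block LIN (WEYL): integrals, oscillating factors, cut-offs
-/

open MeasureTheory UnitAddTorus
open scoped ENNReal ContDiff FourierTransform Topology

namespace Vale.Agent.P214.LIN

open REF

noncomputable section

variable {m : ℕ}

/-! ### sup bounds -/

lemma Sm.eq_S {F : E m → ℝ} (hF : Sm F) {x : E m} (hx : ‖x‖ < 1 / 2) :
    F x = S (fc (per F)) x := by
  rw [fc_qt hF.dec, per_qt hF.cont hF.sup hx]

lemma Sm.iter_le {F : E m → ℝ} (hF : Sm F) (j : ℕ) (x : E m) :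
    ‖iteratedFDeriv ℝ j F x‖ ≤ (2 * Real.pi) ^ j * nn j F := by
  by_cases hx : ‖x‖ < 1 / 2
  · have h1 : F =ᶠ[𝓝 x] S (fc (per F)) := by
      filter_upwards [(isOpen_lt continuous_norm continuous_const).mem_nhds hx] with y hy
      exact hF.eq_S hy
    rw [(h1.iteratedFDeriv ℝ j).eq_of_nhds]
    refine (hF.dec.norm_iteratedFDeriv_le j x).trans ?_
    rw [hF.nn_eq, ← tsum_mul_left]
    refine (hF.dec.summable_pow j).tsum_le_tsum (fun k => ?_) ((hF.summable j).mul_left _)
    have h0 := sz_nonneg k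
    have hpi := Real.pi_pos
    rw [mul_pow]
    calc ‖fc (per F) k‖ * ((2 * Real.pi) ^ j * sz k ^ j)
        ≤ ‖fc (per F) k‖ * ((2 * Real.pi) ^ j * (1 + sz k) ^ j) := by
          gcongr
          linarith
      _ = _ := by ring
  · obtain ⟨r, hr, h⟩ := hF.sp
    have h1 : F =ᶠ[𝓝 x] fun _ => 0 := by
      have h2 : {y : E m | r < ‖y‖} ∈ 𝓝 x :=
        (isOpen_lt continuous_const continuous_norm).mem_nhds
          (show r < ‖x‖ by push Not at hx; linarith)
      filter_upwards [h2] with y hy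
      exact h y (le_of_lt hy)
    rw [(h1.iteratedFDeriv ℝ j).eq_of_nhds]
    have h3 : iteratedFDeriv ℝ j (fun _ : E m => (0 : ℝ)) x = 0 := by
      rw [iteratedFDeriv_fun_zero]
      rfl
    rw [h3, norm_zero]
    have := nn_nonneg j F
    positivity

lemma Sm.abs_le {F : E m → ℝ} (hF : Sm F) (x : E m) : |F x| ≤ nn 0 F := by
  have h := hF.iter_le 0 x
  rw [norm_iteratedFDeriv_zero, pow_zero, one_mul, Real.norm_eq_abs] at h
  exact h

/-- norms from derivatives -/
lemma nn_le_iter (m q : ℕ) : ∃ C : ℝ, 0 ≤ C ∧ ∀ F : E m → ℝ, Sm F → ∀ M : ℝ, 0 ≤ M →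
    (∀ j ≤ q + 2 * m, ∀ x, ‖iteratedFDeriv ℝ j F x‖ ≤ M) → nn q F ≤ C * M := by
  obtain ⟨C, hC, h⟩ := N_per_le m q
  exact ⟨C, hC, fun F hF M hM hj => nn_le_of (mul_nonneg hC hM) (h F hF.cd hF.sup M hj)⟩

/-! ### cut-offs -/

lemma sm_ctf {a b : ℝ} (ha : 0 < a) (hab : a < b) (hb : b < 7 / 16) : Sm (ctf (m := m) a b) :=
  ⟨contDiff_ctf a b, b, hb, fun _ hx => ctf_zero ha hab hx⟩

lemma nn_ctf (m q : ℕ) : ∃ C : ℝ, 0 ≤ C ∧ ∀ a b : ℝ, 0 < a → a < b → b < 7 / 16 →
    nn q (ctf (m := m) a b) ≤ C * (b - a)⁻¹ ^ (q + 2 * m) := by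
  obtain ⟨C1, hC1, h1⟩ := nn_le_iter m q
  choose C2 hC2 h2 using ctf_bound (m := m)
  refine ⟨C1 * ∑ j ∈ Finset.range (q + 2 * m + 1), C2 j,
    mul_nonneg hC1 (Finset.sum_nonneg fun j _ => hC2 j), fun a b ha hab hb => ?_⟩
  have hba : 0 < b - a := by linarith
  have h3 : 1 ≤ (b - a)⁻¹ := by
    rw [one_le_inv₀ hba]
    linarith
  have h4 := h1 (ctf a b) (sm_ctf ha hab hb)
    ((∑ j ∈ Finset.range (q + 2 * m + 1), C2 j) * (b - a)⁻¹ ^ (q + 2 * m))
    (mul_nonneg (Finset.sum_nonneg fun j _ => hC2 j) (by positivity)) (fun j hj x => by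
      refine (h2 j a b ha hab (by linarith) x).trans ?_
      have h5 : C2 j ≤ ∑ j ∈ Finset.range (q + 2 * m + 1), C2 j :=
        Finset.single_le_sum (f := C2) (fun j _ => hC2 j) (Finset.mem_range.2 (by omega))
      have h6 : (b - a)⁻¹ ^ j ≤ (b - a)⁻¹ ^ (q + 2 * m) := pow_le_pow_right₀ h3 hj
      have h7 := hC2 j
      exact mul_le_mul h5 h6 (by positivity) (h7.trans h5))
  linarith

/-! ### oscillating factors -/

/-- the real part of `c e^{2πi k·x}` -/
def os (c : ℂ) (k : Fin m → ℤ) (x : E m) : ℝ := g1 c (ln k x)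

lemma contDiff_os (c : ℂ) (k : Fin m → ℤ) : ContDiff ℝ ∞ (os c k) :=
  (contDiff_g1 c).comp (ln k).contDiff

lemma os_eq (c : ℂ) (k : Fin m → ℤ) (x : E m) :
    os c k x = rp (c • (mFourier k : C(Tor m, ℂ))) (qt x) := by
  rw [rp_apply, ContinuousMap.smul_apply, mFourier_qt]
  rfl

lemma N_os (c : ℂ) (k : Fin m → ℤ) (q : ℕ) :
    N (wt q 0 0) (rp (c • (mFourier k : C(Tor m, ℂ)))) ≤ ENNReal.ofReal (‖c‖ * (1 + sz k) ^ q) := by
  refine ((Wt_wt q 0 le_rfl).N_rp _).trans ?_
  have h1 : ∀ l, cf (c • (mFourier k : C(Tor m, ℂ))) l = if k = l then c else 0 := by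
    intro l
    rw [cf_smul, cf_mFourier]
    by_cases h : k = l <;> simp [h]
  simp only [h1]
  rw [tsum_eq_single k (fun l hl => by rw [if_neg (Ne.symm hl)]; simp), if_pos rfl,
    ENNReal.ofReal_mul (norm_nonneg _), ofReal_norm]
  refine le_of_eq ?_
  unfold wt wr
  simp

lemma nn_mul_os {F : E m → ℝ} (hF : Sm F) (c : ℂ) (k : Fin m → ℤ) (q : ℕ) :
    nn q (fun x => F x * os c k x) ≤ nn q F * (‖c‖ * (1 + sz k) ^ q) := by
  have h0 := one_le_sz k
  have h1 : (fun x => F x * os c k x) = fun x => F x * rp (c • (mFourier k : C(Tor m, ℂ))) (qt x) := by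
    funext x
    rw [os_eq]
  rw [h1]
  refine nn_le_of (mul_nonneg (nn_nonneg _ _) (by positivity)) ?_
  rw [per_mul_tor hF, ENNReal.ofReal_mul (nn_nonneg _ _), ← hF.N_eq]
  refine ((Wt_wt q 0 le_rfl).N_mul _ _).trans ?_
  gcongr
  exact N_os c k q

/-! ### integrals -/

lemma Sm.hcsR {F : E m → ℝ} (hF : Sm F) : HasCompactSupport F := by
  refine HasCompactSupport.intro (isCompact_closedBall (0 : E m) (7 / 16)) fun x hx => ?_
  rw [Metric.mem_closedBall, dist_zero_right, not_le] at hx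
  exact hF.sup x hx.le

lemma Sm.integrable {F : E m → ℝ} (hF : Sm F) : Integrable F :=
  hF.cont.integrable_of_hasCompactSupport hF.hcsR

lemma int_os {F : E m → ℝ} (hF : Sm F) (c : ℂ) (k : Fin m → ℤ) :
    ∫ x, F x * os c k x = (c * fc (per F) (-k)).re := by
  have h0 : ∀ x : E m, (-2 * Real.pi * inner ℝ x (vec (-k)) : ℝ) = ln k x := by
    intro x
    have h3 : vec (-k) = -vec k := by
      ext i
      simp [vec]
    have h4 : ln k x = 2 * Real.pi * inner ℝ (vec k) x := rfl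
    rw [h3, inner_neg_right, real_inner_comm, h4]
    ring
  have h2 : fc (per F) (-k) = ∫ x : E m, Complex.exp ((ln k x : ℝ) * Complex.I) * (F x : ℂ) := by
    rw [fc_per hF.cont hF.sup, Real.fourier_eq']
    refine integral_congr_ae (Filter.Eventually.of_forall fun x => ?_)
    simp only
    rw [h0, smul_eq_mul]
  have h6 : Continuous fun x : E m => Complex.exp ((ln k x : ℝ) * Complex.I) :=
    Complex.continuous_exp.comp
      ((Complex.continuous_ofReal.comp (ln k).continuous).mul continuous_const)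
  have h5 : Integrable fun x : E m => c * (Complex.exp ((ln k x : ℝ) * Complex.I) * (F x : ℂ)) := by
    refine Integrable.const_mul ?_ c
    refine Continuous.integrable_of_hasCompactSupport
      (h6.mul (Complex.continuous_ofReal.comp hF.cont)) ?_
    exact (REF.hcs hF.sup).mul_left
  rw [h2, ← integral_const_mul]
  have h7 := integral_re h5
  have h8 : ∫ x : E m, F x * os c k x = ∫ x : E m,
      RCLike.re (c * (Complex.exp ((ln k x : ℝ) * Complex.I) * (F x : ℂ))) := by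
    refine integral_congr_ae (Filter.Eventually.of_forall fun x => ?_)
    change F x * (c * Complex.exp ((ln k x : ℝ) * Complex.I)).re =
      (c * (Complex.exp ((ln k x : ℝ) * Complex.I) * (F x : ℂ))).re
    rw [← mul_assoc, mul_comm _ (F x : ℂ), Complex.re_ofReal_mul]
  rw [h8]
  exact h7

/-- the coefficients are controlled by the integrals against oscillating factors -/
lemma norm_fc_le_int {F : E m → ℝ} (hF : Sm F) (k : Fin m → ℤ) :
    ‖fc (per F) k‖ ≤ |∫ x, F x * os 1 (-k) x| + |∫ x, F x * os (-Complex.I) (-k) x| := by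
  rw [int_os hF, int_os hF, neg_neg, one_mul]
  have h1 : (-Complex.I * fc (per F) k).re = (fc (per F) k).im := by simp
  rw [h1]
  exact Complex.norm_le_abs_re_add_abs_im _

/-- integration by parts -/
lemma int_pd {F G : E m → ℝ} (hF : ContDiff ℝ ∞ F) (hG : Sm G) (i : Fin m) :
    ∫ x, REF.pd i F x * G x = -∫ x, F x * REF.pd i G x := by
  have h := integral_mul_fderiv_eq_neg_fderiv_mul_of_integrable (μ := (volume : Measure (E m)))
    (f := F) (g := G) (v := bs i)
    (Sm.mul_left (contDiff_pd hF i) hG).integrable (Sm.mul_left hF (hG.pd i)).integrable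
    (Sm.mul_left hF hG).integrable
    (fun x _ => (hF.differentiable (by simp)).differentiableAt)
    (fun x _ => (hG.cd.differentiable (by simp)).differentiableAt)
  have h' : ∫ x, F x * REF.pd i G x = -∫ x, REF.pd i F x * G x := h
  rw [h', neg_neg]

lemma pd_comm {F : E m → ℝ} (hF : ContDiff ℝ ∞ F) (i j : Fin m) (x : E m) :
    REF.pd i (REF.pd j F) x = REF.pd j (REF.pd i F) x := by
  have h1 : ∀ (i j : Fin m), REF.pd i (REF.pd j F) x = fderiv ℝ (fderiv ℝ F) x (bs i) (bs j) := by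
    intro i j
    unfold REF.pd
    have h2 : ContDiff ℝ ∞ (fderiv ℝ F) := hF.fderiv_right (by simp)
    have h3 : HasFDerivAt (fun y => fderiv ℝ F y (bs j))
        ((ContinuousLinearMap.apply ℝ ℝ (bs j)).comp (fderiv ℝ (fderiv ℝ F) x)) x :=
      (ContinuousLinearMap.apply ℝ ℝ (bs j)).hasFDerivAt.comp x
        (h2.differentiable (by simp)).differentiableAt.hasFDerivAt
    rw [h3.fderiv]
    rfl
  rw [h1, h1]
  exact (hF.contDiffAt.isSymmSndFDerivAt (by
    rw [minSmoothness_of_isRCLikeNormedField]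
    exact WithTop.coe_le_coe.2 (le_top : (2 : ℕ∞) ≤ ⊤))).eq _ _

lemma int_pd_pd {F G : E m → ℝ} (hF : ContDiff ℝ ∞ F) (hG : Sm G) (i j : Fin m) :
    ∫ x, REF.pd i (REF.pd j F) x * G x = ∫ x, F x * REF.pd i (REF.pd j G) x := by
  rw [int_pd (contDiff_pd hF j) hG, int_pd hF (hG.pd i), neg_neg]
  congr 1
  funext x
  rw [pd_comm hG.cd]

end

end Vale.Agent.P214.LIN
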