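import Vale.Agent.P214.LIN.Pair

/-!
# P214, block LIN (WEYL): smooth approximation of a vector valued measure

A measure `φ ↦ ∫ z φ(π y) dν(y)` on the box is approximated by a trigonometric polynomial `U`, with
an error which is small in a weak norm.
-/

open MeasureTheory UnitAddTorus
open scoped ENNReal ContDiff FourierTransform Topology

namespace Vale.Agent.P214.LIN

open REF

noncomputable section

variable {m n : ℕ}

/-- the box of integer vectors -/
def bx (m N : ℕ) : Finset (Fin m → ℤ) := Fintype.piFinset fun _ => Finset.Icc (-(N : ℤ)) N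

lemma mem_bx {N : ℕ} {k : Fin m → ℤ} : k ∈ bx m N ↔ ∀ i, |k i| ≤ N := by
  unfold bx
  simp only [Fintype.mem_piFinset, Finset.mem_Icc, abs_le]

lemma neg_mem_bx {N : ℕ} {k : Fin m → ℤ} (h : k ∈ bx m N) : -k ∈ bx m N := by
  rw [mem_bx] at h ⊢
  intro i
  rw [Pi.neg_apply, abs_neg]
  exact h i

lemma lt_sz_of_notMem {N : ℕ} {k : Fin m → ℤ} (h : k ∉ bx m N) : (N : ℝ) ≤ sz k := by
  rw [mem_bx] at h
  push Not at h
  obtain ⟨i, hi⟩ := h
  refine le_trans ?_ (abs_le_sz k i)
  rw [← Int.cast_abs]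
  exact_mod_cast hi.le

/-- partial sum of the Fourier series -/
def psum (N : ℕ) (F : E m → ℝ) (x : E m) : ℝ := ∑ k ∈ bx m N, os (fc (per F) k) k x

lemma contDiff_psum (N : ℕ) (F : E m → ℝ) : ContDiff ℝ ∞ (psum N F) :=
  ContDiff.sum fun k _ => contDiff_os _ k

lemma abs_os_le (c : ℂ) (k : Fin m → ℤ) (x : E m) : |os c k x| ≤ ‖c‖ := abs_g1_le _ _

lemma abs_sub_psum_le {F : E m → ℝ} (hF : Sm F) (N : ℕ) {x : E m} (hx : ‖x‖ < 1 / 2) :
    |F x - psum N F x| ≤ nn 1 F / (N + 1) := by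
  have hs : Summable fun k => os (fc (per F) k) k x := by
    refine Summable.of_norm_bounded (hF.dec 0) fun k => ?_
    rw [Real.norm_eq_abs, pow_zero, mul_one]
    exact abs_os_le _ _ _
  have h1 : F x - psum N F x = ∑' k : {k // k ∉ bx m N}, os (fc (per F) k) k x := by
    rw [hF.eq_S hx]
    unfold S psum
    have h2 := hs.sum_add_tsum_subtype_compl (bx m N)
    have h3 : ∑' k, tm (fc (per F)) k x = ∑' k, os (fc (per F) k) k x := rfl
    rw [h3, ← h2]
    ring
  rw [h1, ← Real.norm_eq_abs]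
  have hN : (0 : ℝ) < N + 1 := by positivity
  have hs1 : Summable fun k : {k // k ∉ bx m N} => ‖fc (per F) k‖ * (1 + sz (k : Fin m → ℤ)) ^ 1 :=
    (hF.summable 1).subtype _
  have h4 : ∀ k : {k // k ∉ bx m N}, ‖os (fc (per F) k) k x‖ ≤
      (‖fc (per F) k‖ * (1 + sz (k : Fin m → ℤ)) ^ 1) / (N + 1) := by
    intro k
    rw [Real.norm_eq_abs, le_div_iff₀ hN, pow_one]
    have h5 := abs_os_le (fc (per F) k) k x
    have h6 := lt_sz_of_notMem k.2
    have h7 : (N : ℝ) + 1 ≤ 1 + sz (k : Fin m → ℤ) := by linarith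
    exact mul_le_mul h5 h7 hN.le (norm_nonneg _)
  refine (tsum_of_norm_bounded (hs1.div_const _).hasSum h4).trans ?_
  rw [tsum_div_const]
  refine div_le_div_of_nonneg_right ?_ hN.le
  rw [hF.nn_eq]
  exact (hF.summable 1).tsum_subtype_le (fun k => ‖fc (per F) k‖ * (1 + sz k) ^ 1)
    {k | k ∉ bx m N} (fun k => by
      have := one_le_sz k
      positivity)

variable {Y : Type*} [MeasurableSpace Y]

/-- coefficients of a measure -/
def zc (ν : Measure Y) (z : Y → ℝ) (πx : Y → E m) (k : Fin m → ℤ) : ℂ :=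
  ∫ y, (z y : ℂ) * Complex.exp (-(ln k (πx y) : ℝ) * Complex.I) ∂ν

/-- the trigonometric polynomial -/
def tp (N : ℕ) (ν : Measure Y) (z : Y → ℝ) (πx : Y → E m) (x : E m) : ℝ :=
  ∑ k ∈ bx m N, os (zc ν z πx k) k x

lemma contDiff_tp (N : ℕ) (ν : Measure Y) (z : Y → ℝ) (πx : Y → E m) :
    ContDiff ℝ ∞ (tp N ν z πx) := ContDiff.sum fun k _ => contDiff_os _ k

lemma ln_neg (k : Fin m → ℤ) (x : E m) : ln (-k) x = -ln k x := by
  rw [ln_apply, ln_apply]
  simp

lemma integrable_z_exp {ν : Measure Y} {z : Y → ℝ} {πx : Y → E m} (hz : Integrable z ν)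
    (hπ : Measurable πx) (k : Fin m → ℤ) :
    Integrable (fun y => (z y : ℂ) * Complex.exp (-(ln k (πx y) : ℝ) * Complex.I)) ν := by
  refine (hz.ofReal (𝕜 := ℂ)).mul_bdd (c := 1) ?_ ?_
  · refine Measurable.aestronglyMeasurable ?_
    refine Complex.measurable_exp.comp ?_
    refine Measurable.mul_const (Measurable.neg ?_) _
    exact Complex.measurable_ofReal.comp ((ln k).continuous.measurable.comp hπ)
  · refine Filter.Eventually.of_forall fun y => ?_
    rw [← Complex.ofReal_neg, Complex.norm_exp_ofReal_mul_I]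

/-- pairing of the trigonometric polynomial -/
lemma int_tp {ν : Measure Y} {z : Y → ℝ} {πx : Y → E m} (hz : Integrable z ν)
    (hπ : Measurable πx) (N : ℕ) {Ψ : E m → ℝ} (hΨ : Sm Ψ) :
    ∫ x, tp N ν z πx x * Ψ x = ∫ y, z y * psum N Ψ (πx y) ∂ν := by
  have h1 : ∫ x, tp N ν z πx x * Ψ x = ∑ k ∈ bx m N, (zc ν z πx k * fc (per Ψ) (-k)).re := by
    unfold tp
    simp only [Finset.sum_mul]
    rw [integral_finsetSum _ fun k _ => (Sm.mul_left (contDiff_os _ k) hΨ).integrable]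
    refine Finset.sum_congr rfl fun k _ => ?_
    rw [← int_os hΨ]
    congr 1
    funext x
    rw [mul_comm]
  have h3 : ∀ k : Fin m → ℤ, Integrable (fun y => z y * os (fc (per Ψ) k) k (πx y)) ν := by
    intro k
    refine hz.mul_bdd (c := ‖fc (per Ψ) k‖) ?_ ?_
    · exact ((contDiff_os _ k).continuous.measurable.comp hπ).aestronglyMeasurable
    · exact Filter.Eventually.of_forall fun y => abs_os_le _ _ _
  have h4 : ∫ y, z y * psum N Ψ (πx y) ∂ν =
      ∑ k ∈ bx m N, ∫ y, z y * os (fc (per Ψ) k) k (πx y) ∂ν := by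
    unfold psum
    simp only [Finset.mul_sum]
    exact integral_finsetSum _ fun k _ => h3 k
  have h5 : ∀ k : Fin m → ℤ, ∫ y, z y * os (fc (per Ψ) k) k (πx y) ∂ν =
      (zc ν z πx (-k) * fc (per Ψ) k).re := by
    intro k
    unfold zc
    rw [← integral_mul_const]
    have h6 := integral_re ((integrable_z_exp hz hπ (-k)).mul_const (fc (per Ψ) k))
    have h7 : ∫ y, z y * os (fc (per Ψ) k) k (πx y) ∂ν = ∫ y, RCLike.re
        ((z y : ℂ) * Complex.exp (-(ln (-k) (πx y) : ℝ) * Complex.I) * fc (per Ψ) k) ∂ν := by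
      refine integral_congr_ae (Filter.Eventually.of_forall fun y => ?_)
      change z y * (fc (per Ψ) k * Complex.exp ((ln k (πx y) : ℝ) * Complex.I)).re =
        ((z y : ℂ) * Complex.exp (-(ln (-k) (πx y) : ℝ) * Complex.I) * fc (per Ψ) k).re
      rw [ln_neg, Complex.ofReal_neg, neg_neg, mul_assoc, Complex.re_ofReal_mul, mul_comm (fc _ k)]
    rw [h7]
    exact h6
  rw [h1, h4]
  simp only [h5]
  refine Finset.sum_bij' (fun k _ => -k) (fun k _ => -k) (fun k hk => neg_mem_bx hk)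
    (fun k hk => neg_mem_bx hk) (fun k _ => neg_neg k) (fun k _ => neg_neg k) (fun k _ => ?_)
  rw [neg_neg]

/-- **the approximation** -/
lemma tp_error {ν : Measure Y} {z : Y → ℝ} {πx : Y → E m} (hz : Integrable z ν)
    (hπ : Measurable πx) (hb : ∀ᵐ y ∂ν, z y ≠ 0 → ‖πx y‖ < 1 / 2) (N : ℕ) {Ψ : E m → ℝ}
    (hΨ : Sm Ψ) :
    |(∫ x, tp N ν z πx x * Ψ x) - ∫ y, z y * Ψ (πx y) ∂ν| ≤
      nn 1 Ψ / (N + 1) * ∫ y, |z y| ∂ν := by
  rw [int_tp hz hπ N hΨ]
  have i1 : Integrable (fun y => z y * psum N Ψ (πx y)) ν := by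
    refine hz.mul_bdd (c := ∑ k ∈ bx m N, ‖fc (per Ψ) k‖) ?_ ?_
    · exact ((contDiff_psum N Ψ).continuous.measurable.comp hπ).aestronglyMeasurable
    · refine Filter.Eventually.of_forall fun y => ?_
      exact (norm_sum_le _ _).trans (Finset.sum_le_sum fun k _ => abs_os_le _ _ _)
  have i2 : Integrable (fun y => z y * Ψ (πx y)) ν := by
    refine hz.mul_bdd (c := nn 0 Ψ) ?_ ?_
    · exact (hΨ.cont.measurable.comp hπ).aestronglyMeasurable
    · exact Filter.Eventually.of_forall fun y => hΨ.abs_le _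
  rw [← integral_sub i1 i2, ← integral_const_mul]
  refine abs_integral_le_integral_abs.trans ?_
  refine integral_mono_ae (i1.sub i2).abs (hz.abs.const_mul _) ?_
  filter_upwards [hb] with y hy
  rw [← mul_sub, abs_mul, mul_comm]
  by_cases h0 : z y = 0
  · rw [h0]
    simp
  · have h1 := abs_sub_psum_le hΨ N (hy h0)
    rw [abs_sub_comm] at h1
    exact mul_le_mul_of_nonneg_right h1 (abs_nonneg _)

end

end Vale.Agent.P214.LIN
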