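import Vale.Agent.P214.LIN.Props
import Vale.Agent.P214.REF.MinW
import Vale.Agent.P214.REF.Cut

/-!
# P214, block LIN: coefficients of the linearisation at a reference, quadratic remainder
-/

open MvPolynomial MeasureTheory Filter Topology
open scoped ENNReal ContDiff

namespace Vale.Agent.P214.LIN

open REF (pd per N wt Sup fc Wt Mop cp gm ctf qt repE)

noncomputable section

variable {m n : ℕ}

/-! ### coefficients -/

/-- first derivatives of `u`, as a point of the jet space -/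
def jt (u : Fin n → REF.E m → ℝ) (x : REF.E m) (q : Fin m × Fin n) : ℝ := pd q.1 (u q.2) x

/-- second order coefficients of the linearisation, minus the identity -/
def alw (u : Fin n → REF.E m → ℝ) (i j : Fin m) (x : REF.E m) : ℝ := -eval (jt u x) (cp m n i j)

/-- first order coefficients of the linearisation -/
def bew (u : Fin n → REF.E m → ℝ) (a : Fin n) (q : Fin m × Fin n) (x : REF.E m) : ℝ :=
  -∑ i, ∑ j, eval (jt u x) (pderiv q (cp m n i j)) * pd i (pd j (u a)) x

lemma bew_eq (u : Fin n → REF.E m → ℝ) (a b : Fin n) (k : Fin m) (x : REF.E m) :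
    bew u a (k, b) x = WIN.bco u a b k x := rfl

lemma Aco_eq (u : Fin n → REF.E m → ℝ) (i j : Fin m) (x : REF.E m) :
    WIN.Aco u i j x = (1 : Matrix (Fin m) (Fin m) ℝ) i j + alw u i j x := by
  unfold WIN.Aco alw
  have h1 := REF.eval_cp u x i j
  have h2 : eval (jt u x) (cp m n i j) =
      (1 : Matrix (Fin m) (Fin m) ℝ) i j - (gm u x).adjugate i j := h1
  rw [h2]
  ring

lemma contDiff_alw {u : Fin n → REF.E m → ℝ} (hu : ∀ a, ContDiff ℝ ∞ (u a)) (i j : Fin m) :
    ContDiff ℝ ∞ (alw u i j) :=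
  (REF.contDiff_eval (cp m n i j) (fun q => pd q.1 (u q.2))
    fun q => REF.contDiff_pd (hu q.2) q.1).neg

lemma contDiff_bew {u : Fin n → REF.E m → ℝ} (hu : ∀ a, ContDiff ℝ ∞ (u a)) (a : Fin n)
    (q : Fin m × Fin n) : ContDiff ℝ ∞ (bew u a q) := by
  unfold bew
  refine ContDiff.neg (ContDiff.sum fun i _ => ContDiff.sum fun j _ => ?_)
  exact (REF.contDiff_eval (pderiv q (cp m n i j)) (fun q => pd q.1 (u q.2))
    fun q => REF.contDiff_pd (hu q.2) q.1).mul (REF.contDiff_pd (REF.contDiff_pd (hu a) j) i)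

lemma pd_zero_of {u : REF.E m → ℝ} (hu : ContDiff ℝ ∞ u) (h0 : ∀ x, 3 / 8 ≤ ‖x‖ → u x = 0)
    (i : Fin m) : ∀ x, 3 / 8 ≤ ‖x‖ → pd i u x = 0 := REF.zero_pd_le hu (by norm_num) h0 i

lemma alw_zero {u : Fin n → REF.E m → ℝ} (hu : ∀ a, ContDiff ℝ ∞ (u a))
    (hu0 : ∀ a x, 3 / 8 ≤ ‖x‖ → u a x = 0) (i j : Fin m) {x : REF.E m} (hx : 3 / 8 ≤ ‖x‖) :
    alw u i j x = 0 := by
  unfold alw
  have h1 : jt u x = fun _ => 0 := by
    funext q
    exact pd_zero_of (hu q.2) (hu0 q.2) q.1 x hx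
  rw [h1, eval_zero', REF.constantCoeff_cp, neg_zero]

lemma bew_zero {u : Fin n → REF.E m → ℝ} (hu : ∀ a, ContDiff ℝ ∞ (u a))
    (hu0 : ∀ a x, 3 / 8 ≤ ‖x‖ → u a x = 0) (a : Fin n) (q : Fin m × Fin n) {x : REF.E m}
    (hx : 3 / 8 ≤ ‖x‖) : bew u a q x = 0 := by
  unfold bew
  have h1 : ∀ i j, pd i (pd j (u a)) x = 0 := fun i j =>
    pd_zero_of (REF.contDiff_pd (hu a) j) (pd_zero_of (hu a) (hu0 a) j) i x hx
  simp only [h1, mul_zero, Finset.sum_const_zero, neg_zero]

/-- the adjoint operators agree -/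
lemma Lopt_eq {u : Fin n → REF.E m → ℝ} (hu : ∀ a, ContDiff ℝ ∞ (u a))
    {φ : Fin n → REF.E m → ℝ} (hφ : ∀ a, ContDiff ℝ ∞ (φ a)) (b : Fin n) (x : REF.E m) :
    Lopt (alw u) (bew u) φ b x = WIN.Ltw u φ b x := by
  unfold Lopt WIN.Ltw
  have h1 : ∀ i j, pd i (pd j fun x => WIN.Aco u i j x * φ b x) x =
      (if j = i then pd i (pd i (φ b)) x else 0) +
        pd i (pd j fun x => alw u i j x * φ b x) x := by
    intro i j
    have hs : ContDiff ℝ ∞ fun x => alw u i j x * φ b x := (contDiff_alw hu i j).mul (hφ b)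
    by_cases h : j = i
    · subst h
      rw [if_pos rfl]
      have e : (fun x => WIN.Aco u j j x * φ b x) = fun x => φ b x + alw u j j x * φ b x := by
        funext y
        rw [Aco_eq, Matrix.one_apply_eq]
        ring
      rw [e, REF.pd_add (hφ b) hs, REF.pd_add (REF.contDiff_pd (hφ b) j) (REF.contDiff_pd hs j)]
    · rw [if_neg h, zero_add]
      have e : (fun x => WIN.Aco u i j x * φ b x) = fun x => alw u i j x * φ b x := by
        funext y
        rw [Aco_eq, Matrix.one_apply_ne (Ne.symm h)]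
        ring
      rw [e]
  have h2 : ∑ i, ∑ j, pd i (pd j fun x => WIN.Aco u i j x * φ b x) x =
      ∑ i, pd i (pd i (φ b)) x + ∑ i, ∑ j, pd i (pd j fun x => alw u i j x * φ b x) x := by
    rw [← Finset.sum_add_distrib]
    refine Finset.sum_congr rfl fun i _ => ?_
    simp only [h1]
    rw [Finset.sum_add_distrib, Finset.sum_ite_eq' Finset.univ i, if_pos (Finset.mem_univ _)]
  rw [h2]
  rfl

/-! ### torus functions -/

/-- first derivatives on the torus -/
def tU (u : Fin n → REF.E m → ℝ) (q : Fin m × Fin n) : C(REF.Tor m, ℝ) := per (pd q.1 (u q.2))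

/-- second derivatives on the torus -/
def tP (u : Fin n → REF.E m → ℝ) (i j : Fin m) (a : Fin n) : C(REF.Tor m, ℝ) :=
  per (pd i (pd j (u a)))

lemma tU_apply {u : Fin n → REF.E m → ℝ} (hu : ∀ a, ContDiff ℝ ∞ (u a))
    (hu0 : ∀ a x, 3 / 8 ≤ ‖x‖ → u a x = 0) (q : Fin m × Fin n) (t : REF.Tor m) :
    tU u q t = jt u (repE t) q :=
  REF.per_apply (REF.contDiff_pd (hu q.2) q.1).continuous
    (REF.sup_of (pd_zero_of (hu q.2) (hu0 q.2) q.1)) t

lemma tP_apply {u : Fin n → REF.E m → ℝ} (hu : ∀ a, ContDiff ℝ ∞ (u a))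
    (hu0 : ∀ a x, 3 / 8 ≤ ‖x‖ → u a x = 0) (i j : Fin m) (a : Fin n) (t : REF.Tor m) :
    tP u i j a t = pd i (pd j (u a)) (repE t) :=
  REF.per_apply (REF.contDiff_pd (REF.contDiff_pd (hu a) j) i).continuous
    (REF.sup_of (pd_zero_of (REF.contDiff_pd (hu a) j) (pd_zero_of (hu a) (hu0 a) j) i)) t

lemma per_alw {u : Fin n → REF.E m → ℝ} (hu : ∀ a, ContDiff ℝ ∞ (u a))
    (hu0 : ∀ a x, 3 / 8 ≤ ‖x‖ → u a x = 0) (i j : Fin m) :
    per (alw u i j) = -aeval (tU u) (cp m n i j) := by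
  ext t
  rw [REF.per_apply (contDiff_alw hu i j).continuous
    (fun x hx => alw_zero hu hu0 i j (by linarith)) t, ContinuousMap.neg_apply, REF.aeval_tor]
  have e1 : (fun q => (tU u q) t) = jt u (repE t) := funext fun q => tU_apply hu hu0 q t
  rw [e1]
  rfl

lemma per_bew {u : Fin n → REF.E m → ℝ} (hu : ∀ a, ContDiff ℝ ∞ (u a))
    (hu0 : ∀ a x, 3 / 8 ≤ ‖x‖ → u a x = 0) (a : Fin n) (q : Fin m × Fin n) :
    per (bew u a q) = -∑ i, ∑ j, aeval (tU u) (pderiv q (cp m n i j)) * tP u i j a := by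
  ext t
  rw [REF.per_apply (contDiff_bew hu a q).continuous
    (fun x hx => bew_zero hu hu0 a q (by linarith)) t, ContinuousMap.neg_apply,
    REF.sum_torus_apply]
  unfold bew
  congr 1
  refine Finset.sum_congr rfl fun i _ => ?_
  rw [REF.sum_torus_apply]
  refine Finset.sum_congr rfl fun j _ => ?_
  have e1 : (fun q => (tU u q) t) = jt u (repE t) := funext fun q => tU_apply hu hu0 q t
  rw [ContinuousMap.mul_apply, REF.aeval_tor, tP_apply hu hu0, e1]

/-- quadratic remainder on the torus -/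
def tR (u f : Fin n → REF.E m → ℝ) (a : Fin n) : C(REF.Tor m, ℝ) :=
  ∑ i, ∑ j, ((aeval (fun q => tU u q + tU f q) (cp m n i j) - aeval (tU u) (cp m n i j) -
      ∑ q, aeval (tU u) (pderiv q (cp m n i j)) * tU f q) * tP u i j a +
    (aeval (fun q => tU u q + tU f q) (cp m n i j) - aeval (tU u) (cp m n i j)) * tP f i j a)

/-- the defect of the linearisation -/
def dfc (u f : Fin n → REF.E m → ℝ) (a : Fin n) (x : REF.E m) : ℝ :=
  Mop (fun b y => u b y + f b y) a x - Mop u a x - REF.Lop (alw u) (bew u) f a x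

lemma dfc_eq {u f : Fin n → REF.E m → ℝ} (hu : ∀ a, ContDiff ℝ ∞ (u a))
    (hf : ∀ a, ContDiff ℝ ∞ (f a)) (a : Fin n) (x : REF.E m) :
    dfc u f a x = -∑ i, ∑ j, ((eval (fun q => jt u x q + jt f x q) (cp m n i j) -
      eval (jt u x) (cp m n i j) - ∑ q, eval (jt u x) (pderiv q (cp m n i j)) * jt f x q) *
        pd i (pd j (u a)) x + (eval (fun q => jt u x q + jt f x q) (cp m n i j) -
      eval (jt u x) (cp m n i j)) * pd i (pd j (f a)) x) := by
  have hpd : ∀ b i, pd i (fun y => u b y + f b y) = fun y => pd i (u b) y + pd i (f b) y :=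
    fun b i => REF.pd_add (hu b) (hf b) i
  have hpd2 : ∀ b i j, pd i (fun y => pd j (u b) y + pd j (f b) y) =
      fun y => pd i (pd j (u b)) y + pd i (pd j (f b)) y :=
    fun b i j => REF.pd_add (REF.contDiff_pd (hu b) j) (REF.contDiff_pd (hf b) j) i
  have e1 : Mop (fun b y => u b y + f b y) a x =
      ∑ i, (pd i (pd i (u a)) x + pd i (pd i (f a)) x) -
      ∑ i, ∑ j, eval (fun q => jt u x q + jt f x q) (cp m n i j) *
        (pd i (pd j (u a)) x + pd i (pd j (f a)) x) := by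
    rw [← REF.Qop_cp]
    unfold REF.Qop
    simp only [hpd, hpd2]
    rfl
  have e2 : Mop u a x = ∑ i, pd i (pd i (u a)) x -
      ∑ i, ∑ j, eval (jt u x) (cp m n i j) * pd i (pd j (u a)) x := by
    rw [← REF.Qop_cp]
    rfl
  have e3 : ∑ q : Fin m × Fin n, bew u a q x * pd q.1 (f q.2) x =
      -∑ i, ∑ j, (∑ q, eval (jt u x) (pderiv q (cp m n i j)) * jt f x q) *
        pd i (pd j (u a)) x := by
    have e4 : ∀ q : Fin m × Fin n, bew u a q x * pd q.1 (f q.2) x =
        -∑ i, ∑ j, (eval (jt u x) (pderiv q (cp m n i j)) * jt f x q) *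
          pd i (pd j (u a)) x := by
      intro q
      unfold bew
      rw [neg_mul, Finset.sum_mul]
      congr 1
      refine Finset.sum_congr rfl fun i _ => ?_
      rw [Finset.sum_mul]
      refine Finset.sum_congr rfl fun j _ => ?_
      unfold jt
      ring
    rw [Finset.sum_congr rfl fun q _ => e4 q, Finset.sum_neg_distrib, Finset.sum_comm]
    congr 1
    refine Finset.sum_congr rfl fun i _ => ?_
    rw [Finset.sum_comm]
    refine Finset.sum_congr rfl fun j _ => ?_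
    rw [Finset.sum_mul]
  unfold dfc REF.Lop
  rw [e1, e2, e3, Finset.sum_add_distrib]
  have e5 : ∑ i, ∑ j, alw u i j x * pd i (pd j (f a)) x =
      -∑ i, ∑ j, eval (jt u x) (cp m n i j) * pd i (pd j (f a)) x := by
    rw [← Finset.sum_neg_distrib]
    refine Finset.sum_congr rfl fun i _ => ?_
    rw [← Finset.sum_neg_distrib]
    refine Finset.sum_congr rfl fun j _ => ?_
    unfold alw
    ring
  rw [e5]
  have e6 : ∀ i j, (eval (fun q => jt u x q + jt f x q) (cp m n i j) -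
      eval (jt u x) (cp m n i j) - ∑ q, eval (jt u x) (pderiv q (cp m n i j)) * jt f x q) *
        pd i (pd j (u a)) x + (eval (fun q => jt u x q + jt f x q) (cp m n i j) -
      eval (jt u x) (cp m n i j)) * pd i (pd j (f a)) x =
      eval (fun q => jt u x q + jt f x q) (cp m n i j) *
        (pd i (pd j (u a)) x + pd i (pd j (f a)) x) -
      eval (jt u x) (cp m n i j) * pd i (pd j (u a)) x -
      (∑ q, eval (jt u x) (pderiv q (cp m n i j)) * jt f x q) * pd i (pd j (u a)) x -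
      eval (jt u x) (cp m n i j) * pd i (pd j (f a)) x := by
    intro i j
    ring
  simp only [e6, Finset.sum_sub_distrib]
  ring

lemma contDiff_dfc {u f : Fin n → REF.E m → ℝ} (hu : ∀ a, ContDiff ℝ ∞ (u a))
    (hf : ∀ a, ContDiff ℝ ∞ (f a)) (a : Fin n) : ContDiff ℝ ∞ (dfc u f a) := by
  have h1 : ∀ w : Fin n → REF.E m → ℝ, (∀ a, ContDiff ℝ ∞ (w a)) → ContDiff ℝ ∞ (Mop w a) := by
    intro w hw
    have e : Mop w a = REF.Qop (cp m n) w a := funext fun x => (REF.Qop_cp w a x).symm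
    rw [e]
    exact REF.contDiff_Qop _ hw a
  unfold dfc
  refine ((h1 _ fun b => (hu b).add (hf b)).sub (h1 _ hu)).sub ?_
  unfold REF.Lop
  refine ((ContDiff.sum fun i _ => REF.contDiff_pd (REF.contDiff_pd (hf a) i) i).add
    (ContDiff.sum fun i _ => ContDiff.sum fun j _ => (contDiff_alw hu i j).mul
      (REF.contDiff_pd (REF.contDiff_pd (hf a) j) i))).add
    (ContDiff.sum fun q _ => (contDiff_bew hu a q).mul (REF.contDiff_pd (hf q.2) q.1))

/-- the cut-off defect on the torus -/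
lemma per_dfc {u f : Fin n → REF.E m → ℝ} (hu : ∀ a, ContDiff ℝ ∞ (u a))
    (hu0 : ∀ a x, 3 / 8 ≤ ‖x‖ → u a x = 0) (hf : ∀ a, ContDiff ℝ ∞ (f a))
    (hf0 : ∀ a x, 3 / 8 ≤ ‖x‖ → f a x = 0) {χ : REF.E m → ℝ} (hχ : ContDiff ℝ ∞ χ)
    (hχ0 : Sup χ) (a : Fin n) : per (fun x => χ x * dfc u f a x) = -(per χ * tR u f a) := by
  ext t
  have h1 : per (fun x => χ x * dfc u f a x) t = χ (repE t) * dfc u f a (repE t) :=
    REF.per_apply (F := fun x => χ x * dfc u f a x) (hχ.mul (contDiff_dfc hu hf a)).continuous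
      (fun x hx => by simp only [hχ0 x hx, zero_mul]) t
  rw [h1, ContinuousMap.neg_apply, ContinuousMap.mul_apply, REF.per_apply hχ.continuous hχ0,
    dfc_eq hu hf]
  unfold tR
  rw [REF.sum_torus_apply, mul_neg]
  congr 2
  refine Finset.sum_congr rfl fun i _ => ?_
  rw [REF.sum_torus_apply]
  refine Finset.sum_congr rfl fun j _ => ?_
  have e1 : (fun q => (tU u q) t) = jt u (repE t) := funext fun q => tU_apply hu hu0 q t
  have e2 : (fun q => (tU u q + tU f q) t) = fun q => jt u (repE t) q + jt f (repE t) q := by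
    funext q
    rw [ContinuousMap.add_apply, tU_apply hu hu0, tU_apply hf hf0]
  rw [ContinuousMap.add_apply, ContinuousMap.mul_apply, ContinuousMap.mul_apply,
    ContinuousMap.sub_apply, ContinuousMap.sub_apply, REF.sum_torus_apply, REF.aeval_tor,
    REF.aeval_tor, e1, e2, tP_apply hu hu0, tP_apply hf hf0]
  have e3 : ∀ q, (aeval (tU u) (pderiv q (cp m n i j)) * tU f q) t =
      eval (jt u (repE t)) (pderiv q (cp m n i j)) * jt f (repE t) q := by
    intro q
    rw [ContinuousMap.mul_apply, REF.aeval_tor, e1, tU_apply hf hf0]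
  simp only [e3]

end

end Vale.Agent.P214.LIN
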